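import Vale.Agent.P014X.St1
import Vale.Agent.P014X.Cm.Ep
import Vale.Agent.P014T.St

/-! # P014X, block Zr: the norm relation at a rational prime, on points (helper5) -/

set_option autoImplicit false
set_option linter.all false

open NumberField QuadraticAlgebra
open scoped Classical

noncomputable section

namespace Vale.Agent.P014X.Zr

open Vale.Agent.P014U
open Vale.Agent.P022 (Qb GQ)
open Vale.Agent.P022E.GW (Ov Fb)
open P004M.TE (Pt ga al ga_mul ga_one)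
open P014T.Top (nq)
open Dr (Zn)
open Pp (ec)
open Ep

namespace Nrm

variable {A B : ℤ} {D : Cd A B} {l n : ℕ} {P : Ideal (𝓞 Qb)} {φ g : GQ} {π u m x y : D.O}

theorem u_star (h : IsUnit u) : u * star u = 1 := by rw [← nm_eq, nm_one.2 h, Nat.cast_one]

theorem can {V : Type} [AddCommGroup V] {N : ℕ} (cp : N.Coprime l) {X Y : V} {k : ℤ} (hX : N • X = 0)
    (hY : N • Y = 0) (q : l • l • X = l • k • Y) : l • X = k • Y := by
  obtain ⟨x, y, c⟩ := Nat.isCoprime_iff_coprime.2 cp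
  rw [← sub_eq_zero, ← one_zsmul (_ - _), ← c, add_smul, mul_smul, mul_smul, natCast_zsmul,
    natCast_zsmul, smul_sub N, smul_comm N, hX, smul_comm N, hY, smul_sub l, q]
  simp

/-- Frobenius elements at good primes -/
theorem frb (cf : D.Cf) (o : Ov l P) (f : Fb l P φ) (d : ¬ (l : ℤ) ∣ 2 * (4 * A ^ 3 + 27 * B ^ 2))
    (d' : ¬ (l : ℤ) ∣ D.b ^ 2 + 4 * D.a) :
    (∃ π u : D.O, π * star π = l ∧ ¬ π ∣ star π ∧ D.Fr π P 1 φ ∧ u * star u = l ∧
      u + star u = al A B l ∧ ∀ m ≠ 0, IsCoprime m π → D.Ac m φ u) ∨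
    (D.Fr l P 1 (φ * φ) ∧ al A B l = 0 ∧ ∀ m ≠ 0, IsCoprime m (l : D.O) → D.Ac m (φ * φ) (-l)) := by
  have := dom (D := D)
  have c2 (k : ℕ) : (2 ^ k).Coprime l := .pow_left _ ((Nat.coprime_primes Nat.prime_two o.1).2
    fun e => d (e ▸ dvd_mul_right _ _))
  obtain ⟨-, s1, s2⟩ := cf.spl l P φ o d' f
  have e (k : ℕ) := ch o f d (tt cf k)
  by_cases m : φ ∈ D.G
  · obtain ⟨π, e1, e2, e3⟩ := s1 m
    obtain ⟨ζ, u, a⟩ := cf.mt _ _ _ _ e3
    rw [pow_one] at a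
    have z := u_star u
    refine .inl ⟨π, ζ * π, e1, fun ⟨y, k⟩ => e2 (by
      rw [k, map_mul]; exact P.mul_mem_right _ e3.mem), e3, by
        rw [star_mul]; linear_combination π * star π * z + e1, ?_, a⟩
    refine sub_eq_zero.1 ((mul_eq_zero.1 (zero_of fun k => ?_)).resolve_left
      (mul_ne_zero u.ne_zero e3.pr.ne_zero))
    have b := (a _ (two_ne k) (e1 ▸ (c2 k).cast).of_mul_right_left).2
    have := e k
    rw [b, cf.lin _ m, b] at this
    rw [← cf.ker _ (two_ne k), show ζ * π * (ζ * π + star (ζ * π) - al A B l) =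
      ζ * π * (ζ * π) + l - al A B l * (ζ * π) by
        rw [star_mul]; linear_combination π * star π * z + e1, map_sub, map_add, map_mul _ (ζ * π),
      map_mul _ (al A B l : D.O), map_natCast, map_intCast]
    exact sub_eq_zero.2 this
  · have e3 := s2 m
    obtain ⟨ζ, u, a⟩ := cf.mt _ _ _ _ e3
    rw [pow_one] at a
    have b (k : ℕ) : D.act (ζ * l + l) (D.tp (2 ^ k : ℕ)) = al A B l • ga φ (D.tp (2 ^ k : ℕ)) := by
      rw [← e k, ← ga_mul, (a _ (two_ne k) (c2 k).cast).2, map_add, map_natCast]; rfl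
    have z : ζ * l + l = 0 := (mul_eq_zero.1 (zero_of (β := (ω - star ω) * _) fun k => by
      have t := ch o f d (T := D.act ω (D.tp (2 ^ k : ℕ))) (k := k) (by
        rw [← map_nsmul, tt cf, map_zero])
      rw [← ga_mul, cf.lin _ e3.G, ga_mul, ← map_nsmul, ← map_add, e k, cf.sem _ m, ← map_zsmul (D.act _),
        ← b] at t
      rw [← cf.ker _ (two_ne k), map_mul, map_sub]
      exact sub_eq_zero.2 t)).resolve_left fun k => by simpa using congrArg im k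
    refine .inr ⟨e3, ?_, eq_neg_of_add_eq_zero_left z ▸ a⟩
    have : (al A B l : D.O) = 0 := zero_of fun k => (cf.ker _ (two_ne k) _).1 (by
      have t := congrArg (ga φ⁻¹) (b k)
      rw [z, map_zero, map_zsmul, ← ga_mul, inv_mul_cancel, ga_one] at t
      rw [map_intCast]
      exact t.symm.trans (map_zero _))
    simpa using congrArg re this

/-- the conjugate Frobenius element -/
theorem fr_cj (cf : D.Cf) (f : D.Fr π P 1 g) (m : D.c * g * D.c ∈ D.G) : ∃ P',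
    D.Fr (star π) P' 1 (D.c * g * D.c) := by
  have c : D.c ∉ D.G := (cf.cG _).2 (cf.c2 ▸ one_mem _)
  have := f.pP
  refine ⟨P.comap (MulSemiringAction.toRingHom GQ (𝓞 Qb) D.c), (MulEquiv.prime_iff
    (starRingAut (R := D.O))).2 f.pr, Ideal.comap_isPrime _ _, ?_, m, fun x => ?_⟩
  · rw [Ideal.mem_comap, MulSemiringAction.toRingHom_apply, cf.cj _ c, star_star]
    exact f.mem
  · rw [Ideal.mem_comap, MulSemiringAction.toRingHom_apply, smul_sub, smul_pow', smul_smul,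
      ← mul_assoc, ← mul_assoc, cf.c2, one_mul, mul_smul, nm_star]
    exact f.eq _

theorem ac_all (cf : D.Cf) (m0 : m ≠ 0) (a : D.Ac m g u) {T : Pt A B} (t : D.act m T = 0) :
    ga g T = D.act u T := by
  obtain ⟨x, rfl⟩ := (cf.gen m m0 T).1 ((cf.tr m m0 T).2 t)
  rw [cf.lin g a.1, a.2, cm]

variable [Pp] {R : Type} [CommRing R] {lam : R →+ Pt A B} {s s' : R}

theorem ec_eq {N k : ℕ} (h : ∀ z : Qb, z ^ pp ^ N = 1 → g z = z ^ k) : ec N g = k := by
  obtain ⟨ζ, h1⟩ := HasEnoughRootsOfUnity.exists_primitiveRoot Qb (pp ^ N)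
  have e := (X4S.Aq.cz_spec g h1.pow_eq_one).symm.trans (h ζ h1.pow_eq_one)
  rw [pow_eq_pow_mod k h1.pow_eq_one, ← ZMod.val_natCast] at e
  exact ZMod.val_injective _ (h1.pow_inj (ZMod.val_lt _) (ZMod.val_lt _) e)

theorem tr_mul (cf : D.Cf) {χ : D.G →* R} (t : D.Tr m χ) (m0 : m * π ≠ 0) : D.Tr (m * π) χ :=
  fun g h => t g (let ⟨ζ, u, a⟩ := (cf.hm _ m0 _).1 h
    (cf.hm _ (left_ne_zero_of_mul m0) _).2 ⟨ζ, u, ac_dvd cf m0 a⟩)

variable (lam) in
/-- `s` acts as `x` -/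
def Rl (s : R) (x : D.O) : Prop := ∀ r, lam (s * r) = D.act x (lam r)

omit [Pp]

theorem Rl.nat (k : ℕ) : Rl lam (k : R) (k : D.O) := fun r => by
  rw [← nsmul_eq_mul, map_nsmul, map_natCast]; rfl

theorem Rl.mul (a : Rl lam s x) (b : Rl lam s' y) : Rl lam (s * s') (x * y) := fun r => by
  rw [mul_assoc, a, b, map_mul]; rfl

theorem Rl.sub (a : Rl lam s x) (b : Rl lam s' y) : Rl lam (s - s') (x - y) := fun r => by
  rw [sub_mul, map_sub, a, b, map_sub]; rfl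

end Nrm

open Nrm

variable [Pp] {A B : ℤ} {D : Cd A B}

/-- **the norm relation** -/
theorem nrm (cf : D.Cf) (rw : D.Rw) {a M l n : ℕ} (hl : l.Prime)
    (g1 : ¬ (l : ℤ) ∣ 2 * pp * (4 * A ^ 3 + 27 * B ^ 2)) (g2 : ¬ (l : ℤ) ∣ D.b ^ 2 + 4 * D.a)
    (lM : ¬ l ∣ M) (ad : D.Ad pp a (M : ℕ)) (ad' : D.Ad pp a (M * l : ℕ)) {R : Type} [CommRing R]
    {j : Zn n →+* R} {χ : D.G →* R} (tr : D.Tr (M : ℕ) χ) {lam : R →+ Pt A B}
    (h : ∀ (g : D.G) r, lam (D.ak j χ g * r) = ga g.1 (lam r)) : ∃ t, pp ^ n • t = 0 ∧ ∀ g : D.G,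
      (l : ℤ) • lam (D.zc a (M * l : ℕ) j χ g) =
        nq A B l • lam (D.zc a (M : ℕ) j χ g) + (ga g.1 t - t) := by
  have := dom (D := D)
  have p0 : ((pp ^ n : ℕ) : D.O) ≠ 0 := nat_ne (pow_pos pp_pos n).ne'
  have cp : (pp ^ n).Coprime l := .pow_left _ ((Nat.coprime_primes pp_prime hl).2 fun e =>
    g1 (e ▸ (dvd_mul_left _ _).mul_right _))
  have cM : IsCoprime (l : D.O) M := (hl.coprime_iff_not_dvd.2 lM).cast
  have tor : ∀ r, pp ^ n • lam r = 0 := fun r => by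
    rw [← map_nsmul, nsmul_eq_mul, ← map_natCast j, ZMod.natCast_self, map_zero, zero_mul, map_zero]
  have rl : ∀ (g : D.G) u, D.Ac (pp ^ n : ℕ) g u → Rl lam (D.nm u * χ g) u := fun g u k r => by
    rw [← ac_all cf p0 k (by rw [map_natCast]; exact tor r), ← h, ← map_natCast j,
      ← ec_eq (cf.det _ _ _ (pow_pos pp_pos n).ne' k)]
    rfl
  suffices k : ∃ s w : R, (∀ g, D.zc a (M * l : ℕ) j χ g - s * D.zc a (M : ℕ) j χ g =
      (D.ak j χ g - 1) * w) ∧ Rl lam (l * (l * s)) (l * nq A B l : D.O) by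
    obtain ⟨s, w, e, k⟩ := k
    refine ⟨lam (l • w), tor _, fun g => ?_⟩
    have q := k (D.zc a (M : ℕ) j χ g)
    rw [mul_assoc, mul_assoc, ← nsmul_eq_mul, ← nsmul_eq_mul, map_nsmul, map_nsmul, map_mul D.act,
      map_natCast, map_intCast] at q
    rw [eq_add_of_sub_eq' (e g), map_add, sub_mul, one_mul, map_sub, h, natCast_zsmul, nsmul_add,
      can cp (tor _) (tor _) q, nsmul_sub, map_nsmul, map_nsmul]
  obtain ⟨P, o⟩ := ex_ov hl
  obtain ⟨φ, f⟩ : ∃ φ, Fb l P φ := P022D.W.exists_phi o.1 o.2.1 o.2.2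
  rcases frb cf o f (fun k => g1 (k.trans ⟨pp, by ring⟩)) g2 with
    ⟨π, u, e1, e2, e3, e4, e5, k⟩ | ⟨e3, e5, k⟩
  · have k1 := k _ p0 (e1 ▸ cp.cast (R := D.O)).of_mul_right_left
    have k2 := ac_star cf k1 p0
    obtain ⟨P', e3'⟩ := fr_cj cf e3 k2.1
    have e : ((M * l : ℕ) : D.O) = M * π * star π := by rw [Nat.cast_mul, ← e1, mul_assoc]
    rw [e] at ad' ⊢
    have a1 : D.Ad pp a (M * π) := ⟨left_ne_zero_of_mul ad'.ne, ad.dv.mul_right _,
      (mul_assoc (6 : D.O) _ _ ▸ ad'.cop).of_mul_right_left⟩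
    obtain ⟨w, z⟩ := rw.odd n a M π P φ e3 R j χ a1 ad (fun d => e3.pr.not_unit
      (cM.isUnit_of_dvd' ⟨_, e1.symm⟩ d)) tr
    obtain ⟨w', z'⟩ := rw.odd n a (M * π) (star π) P' _ e3' R j χ ad' a1 (fun d =>
      (e3'.pr.dvd_or_dvd d).elim (fun d => e3'.pr.not_unit (cM.isUnit_of_dvd' (e1 ▸ dvd_mul_left _ _) d))
        fun d => e2 (by simpa [starRingEnd_apply] using map_dvd (starRingEnd D.O) d))
      (tr_mul cf tr a1.ne)
    have r := ((Rl.nat l).sub (rl ⟨_, e3'.G⟩ _ k2)).mul ((Rl.nat l).sub (rl ⟨_, e3.G⟩ _ k1))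
    rw [nm_star, nm_of e4] at r
    refine ⟨(1 - χ ⟨_, e3'.G⟩) * (1 - χ ⟨_, e3.G⟩), (1 - χ ⟨_, e3'.G⟩) * w + w', fun g => ?_, ?_⟩
    · have a := z g
      have b := z' g
      simp only [Pi.smul_apply, smul_eq_mul] at a b
      linear_combination b + (1 - χ ⟨_, e3'.G⟩) * a
    · rwa [show (l : D.O) * nq A B l = (l - star u) * (l - u) by
        rw [nq]; push_cast; linear_combination l * e5 - e4, show ∀ x y : R, l * (l * ((1 - x) * (1 - y))) =
          (l - l * x) * (l - l * y) from fun x y => by ring]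
  · rw [Nat.cast_mul] at ad' ⊢
    obtain ⟨w, z⟩ := rw.odd n a M l P _ e3 R j χ ad' ad (fun d => e3.pr.not_unit
      (cM.isUnit_of_dvd' dvd_rfl d)) tr
    have r := ((Rl.nat l).mul (Rl.nat l)).sub (rl ⟨_, e3.G⟩ _ (k _ p0 cp.cast))
    rw [nm_of (n := l * l) (by simp)] at r
    refine ⟨1 - χ ⟨_, e3.G⟩, w, z, ?_⟩
    rwa [show (l : D.O) * nq A B l = l * l - -l by rw [nq, e5]; push_cast; ring,
      show ∀ x : R, l * (l * (1 - x)) = l * l - (l * l : ℕ) * x from fun x => by push_cast; ring]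

end Vale.Agent.P014X.Zr
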