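import Vale.Agent.P014X.An.Kl2
import Vale.Agent.P014U.Zr.Num

/-! # P014X, block Zr: the numbers in the reciprocity law (helper5) -/

set_option autoImplicit false
set_option linter.all false

open scoped Classical UpperHalfPlane ComplexConjugate

noncomputable section

namespace Vale.Agent.P014X.Zr

open Vale.Agent.P014U
open Vale.Agent.P022 (Qb GQ)
open Vale.Agent.P004Z (ee)
open Vale.Agent.P004M.TE (al ga ga_mul)
open Vale.Agent.P027M.M (io)
open P004N (RN)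
open P014T.Top (w0 cS sI)
open P014T.Rk (Lw gw)
open P014T.An (cp Pw Gd pw_mod pw_const)
open P014T.Pl.Zw (wt)
open P014T.Zr.Nm (ch Tn wt_nat wt_neg cop_iff alg)
open An Cf0
open Cd (Tv)

variable {A B : ℤ} {N N₀ L : ℕ} {G : ℍ → ℂ} {a : ℕ → ℤ} {S S' : Finset ℕ}

/-- **the real period lies in the lattice**, and generates its real points -/
theorem ex_g1 (D : Cd A B) : 0 < w0 A B ∧ ∃ γ : D.O, D.Ω * D.J γ = w0 A B ∧
    ∀ x : D.O, (D.Ω * D.J x).im = 0 → ∃ n : ℤ, x = n * γ := by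
  obtain ⟨w, v, w1, v0, s, e⟩ := P014T.Rp.rp (P014T.Lc.Wq (sI A B)) (kl D).lat one_pos
    (by rw [(uf D).e2]; simp [sI, WeierstrassCurve.c₄, WeierstrassCurve.b₂, WeierstrassCurve.b₄]; ring)
    (by rw [(uf D).e3]; simp [sI, WeierstrassCurve.c₆, WeierstrassCurve.b₂, WeierstrassCurve.b₄,
      WeierstrassCurve.b₆]; ring)
  have d : (P014T.Lc.Wq (sI A B)).Δ = -16 * (4 * A ^ 3 + 27 * B ^ 2 : ℤ) := by
    simp [sI, WeierstrassCurve.Δ, WeierstrassCurve.b₂, WeierstrassCurve.b₄, WeierstrassCurve.b₆,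
      WeierstrassCurve.b₈]
    ring
  have k : 0 < (P014T.Lc.Wq (sI A B)).Δ ↔ 4 * A ^ 3 + 27 * B ^ 2 < 0 := by
    rw [d, ← Int.cast_lt_zero (R := ℚ)]
    constructor <;> intro k <;> linarith
  simp only [k] at s e
  obtain rfl : w0 A B = w := by
    rw [w0, e, P014T.Bt.p0]
    split_ifs <;> simp
  obtain ⟨γ, hγ⟩ := (mem_L D).1 ((s (w0 A B)).2 ⟨1, 0, by simp⟩)
  refine ⟨w1, γ, (mul_comm _ _).trans hγ.symm, fun x i => ?_⟩
  obtain ⟨m, n, q⟩ := (s (D.Ω * D.J x)).1 ((mem_L D).2 ⟨x, mul_comm _ _⟩)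
  have n0 : n = 0 := by
    rw [q] at i
    simpa [v0.ne'] using i
  refine ⟨m, (qd D).inj (mul_left_cancel₀ D.Ω0 ?_)⟩
  rw [JH_eq, q, n0, hγ, map_mul, map_intCast]
  push_cast
  ring

theorem ex_g0 (D : Cd A B) : ∃ γ : D.O, D.Ω * D.J γ = w0 A B := (ex_g1 D).2.imp fun _ h => h.1

theorem g_star {D : Cd A B} {γ : D.O} (h : D.Ω * D.J γ = w0 A B) : D.η * star γ = γ := by
  have := congrArg conj h
  rw [Complex.conj_ofReal, ← h, map_mul, D.eta, ← J_star] at this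
  refine (qd D).inj (mul_left_cancel₀ D.Ω0 ?_)
  rw [map_mul, JH_eq, JH_eq, JH_eq, ← this, Cd.J]
  ring

namespace Num

variable {D : Cd A B} {ε : D.O → D.O}

theorem ch1 (n : ℕ) : ch 1 n = 1 := by simp [ch]

theorem nm_c (x : D.O) : (D.nm x : D.O) = x * star x := (qd D).inj (by
  rw [map_natCast, map_mul, JH_eq D (star x), J_star, ← JH_eq, Complex.mul_conj',
    ← Complex.ofReal_pow, Kl1.nsq, Complex.ofReal_natCast])

theorem nm_nat (c : ℕ) : D.nm c = c ^ 2 := by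
  have := Kl1.nsq D c
  rw [map_natCast, Complex.norm_natCast] at this
  exact_mod_cast this.symm

theorem cop_star {x : D.O} (h : IsCoprime x (L : D.O)) : IsCoprime (star x) (L : D.O) := by
  simpa [starRingEnd_apply] using h.map (starRingEnd D.O)

theorem cop_nm {x : D.O} : (D.nm x).Coprime L ↔ IsCoprime x (L : D.O) := by
  refine ⟨fun h => (h.cast (R := D.O)).of_isCoprime_of_dvd_left ⟨_, nm_c x⟩, fun h => ?_⟩
  obtain ⟨u, v, e⟩ := h.mul_left (cop_star h)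
  rw [← nm_c] at e
  exact Nat.isCoprime_iff_coprime.1 ⟨u.re, v.re, by simpa [QuadraticAlgebra.re_one] using congrArg QuadraticAlgebra.re e⟩

theorem rk_star (ep : D.Ep N₀ ε) {ι : Type} {T : Finset ι} {β : ι → D.O} (r : Rk ε L T β) :
    Rk ε L T fun i => star (β i) := by
  refine ⟨fun i h => cop_star (r.cop i h), fun i h => by rw [ep.cj, r.one i h, star_one],
    fun x c e => (existsUnique_congr fun i => and_congr_right fun _ => ?_).1
      (r.ex _ (cop_star c) (by rw [ep.cj, e, star_one]))⟩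
  exact ⟨fun d => by simpa [starRingEnd_apply] using map_dvd (starRingEnd D.O) d, fun d => by
    simpa [starRingEnd_apply] using map_dvd (starRingEnd D.O) d⟩

theorem dT_unit {m α x ζ : D.O} (hm : m ≠ 0) (u : IsUnit ζ) (d : ¬ m ∣ α * x) :
    D.J ζ * io (dT D α (D.act (ζ * x) (D.tp m))) = io (dT D α (D.act x (D.tp m))) := by
  have n := J_ne D hm
  have e1 := Ek_unit u (Kl2.nmem hm (mt (Dvd.dvd.mul_left · α) d))
  have e2 := Ek_unit u (Kl2.nmem hm d)
  rw [kl1d (D.uact _ _ _ (D.utp m hm)) (by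
      rwa [← act_mul, Ne, ker D m hm, mul_left_comm, u.dvd_mul_left]),
    kl1d (D.uact _ _ _ (D.utp m hm)) (by rwa [← act_mul, Ne, ker D m hm])]
  have q : ∀ y, io (D.j y : Qb) * (D.Ω / io (D.j m : Qb)) = D.Ω * JH D y / JH D m := fun y =>
    (mul_div_assoc _ _ _).symm.trans (congrArg (· / _) (mul_comm _ _))
  rw [q, q]
  simp only [← JH_eq, map_mul] at e1 e2 ⊢
  rw [show JH D α * (D.Ω * JH D x / JH D m) = D.Ω * (JH D α * JH D x) / JH D m by ring, ← e1, ← e2,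
    show D.Ω * (JH D ζ * JH D x) / JH D m = JH D ζ * (D.Ω * JH D x / JH D m) by ring,
    show JH D α * (JH D ζ * (D.Ω * JH D x / JH D m)) =
      JH D ζ * (D.Ω * (JH D α * JH D x) / JH D m) by ring]
  ring

theorem gd (T : Tn 1 S a A B A B) (R : RN N G a) (s : S ⊆ S') (p : ∀ p ∈ S', p.Prime) {f : ℕ → ℂ}
    (k : Pw f) : Gd fun n => cS S' f n * al A B n := by
  refine (congrArg Gd (funext fun n => ?_)).mpr (gw R (k.cp (P014T.Pl.Lw.pr_ne p)))
  rw [cS, cp]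
  split_ifs with c
  · rw [T.co n (c.coprime_dvd_right (Finset.prod_dvd_prod_of_subset _ _ _ s)), ch1, one_mul]
  · simp

theorem per (L0 : L ≠ 0) (hL : L.primeFactors = S') {f : ℕ → ℂ} (p : Function.Periodic f L) :
    Function.Periodic (cS S' f) L := fun n => by
  simp only [cS, ← cop_iff L0 hL, p n, Nat.coprime_add_self_left]

end Num

open Num

/-- **the two sums of logarithmic derivatives** -/
theorem val {D : Cd A B} {ε : D.O → D.O} (ep : D.Ep N₀ ε) (T : Tn 1 S a A B A B) (R : RN N G a)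
    {γ : D.O} (hγ : D.Ω * D.J γ = w0 A B) (L0 : L ≠ 0) (hL : L.primeFactors = S') (s : S ⊆ S')
    (hN : N₀ ∣ L) {c : ℕ} (hc : c.Coprime L) {e : ℤ} (he : ε c = e) {f f' : ℕ → ℂ}
    (p : Function.Periodic f L) (p' : Function.Periodic f' L)
    (t : ∀ k, k.Coprime L → f' (c ^ 2 * k) = f k) {Tg : Finset GQ} {β : GQ → D.O}
    (tv : Tv D.G (D.Hf L) Tg) (h : ∀ g ∈ Tg, D.Ac L g (β g)) :
    (∑ g ∈ Tg, f (D.nm (β g)) * io (dT D c (ga g (D.tp L)))) * w0 A B = 2 * L * D.J γ *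
      (c ^ 2 * Lw (al A B) (cS S' f) - c * e * Lw (al A B) (cS S' f')) ∧
    (∑ g ∈ Tg, f (D.nm (β g)) * io (dT D c (ga (D.c * g) (D.tp L)))) * w0 A B =
      2 * L * D.J (star γ) * (c ^ 2 * Lw (al A B) (cS S' f) - c * e * Lw (al A B) (cS S' f')) := by
  have m0 : (L : D.O) ≠ 0 := fun e => L0 (by simpa using congrArg QuadraticAlgebra.re e)
  have dN : (N₀ : D.O) ∣ L := Nat.cast_dvd_cast hN
  have pr : ∀ p ∈ S', p.Prime := fun p k => Nat.prime_of_mem_primeFactors (hL ▸ k)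
  have r := rk_of ep m0 dN tv h
  have z0 : ∀ f : ℕ → ℂ, ∀ n, ¬ n.Coprime L → cS S' f n = 0 := fun f n k =>
    if_neg (mt (cop_iff L0 hL).2 k)
  have z1 : ∀ f : ℕ → ℂ, ∀ n, n.Coprime L → cS S' f n = f n := fun f n k =>
    if_pos ((cop_iff L0 hL).1 k)
  have key : ∀ {β : GQ → D.O}, Rk ε L Tg β → ∑ g ∈ Tg, f (D.nm (β g)) *
      io (dT D c (D.act (β g) (D.tp L))) = 2 * L / D.Ω *
        (c ^ 2 * Lw (al A B) (cS S' f) - c * e * Lw (al A B) (cS S' f')) := fun {β} r => by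
    have := kl2b ep m0 dN r hc.cast (gd T R s pr ⟨L, L0, p⟩) (gd T R s pr ⟨L, L0, p'⟩)
      (fun n k => z0 f n (mt (·.coprime_dvd_right hN) k))
      (fun n k => z0 f' n (mt (·.coprime_dvd_right hN) k))
      (fun x k => z0 f _ (mt cop_nm.1 k)) (fun x k => z0 f' _ (mt cop_nm.1 k))
      (fun x y d => by rw [← (per L0 hL p).map_mod_nat, nm_mod d, (per L0 hL p).map_mod_nat])
      (fun x y d => by rw [← (per L0 hL p').map_mod_nat, nm_mod d, (per L0 hL p').map_mod_nat])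
      fun i hi => by
        have k := cop_nm.2 (r.cop i hi)
        rw [nm_nat, z1 _ _ ((hc.pow_left 2).mul_left k), z1 _ _ k, t _ k]
    rw [Finset.sum_congr rfl fun i hi => by rw [z1 _ _ (cop_nm.2 (r.cop i hi))], he, nm_nat] at this
    simp only [← JH_eq, map_mul, map_natCast, map_intCast, Nat.cast_pow] at this
    rw [this, mul_comm (e : ℂ)]
  have o := D.Ω0
  constructor
  · rw [Finset.sum_congr rfl fun g hg => by rw [(h g hg).2], key r, ← hγ]
    field_simp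
  · have u := eu D
    have n : D.J D.η ≠ 0 := J_ne D (by have := dom D; exact u.ne_zero)
    refine mul_left_cancel₀ n ?_
    rw [← mul_assoc, Finset.mul_sum, Finset.sum_congr rfl fun g hg =>
      show _ = f (D.nm (star (β g))) * io (dT D c (D.act (star (β g)) (D.tp L))) by
        rw [ga_mul, (h g hg).2, sem D _ (c_not D), ctp D _ m0, star_natCast, ← act_mul, mul_comm (star _),
          mul_left_comm, dT_unit m0 u (Kl2.ndv ep dN (hc.cast.mul_left (cop_star (r.cop g hg)))),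
          Kl1.nm_star], key (rk_star ep r), ← hγ]
    have := congrArg (JH D) (g_star hγ)
    rw [map_mul, JH_eq, JH_eq, JH_eq] at this
    rw [← this]
    field_simp

/-- the same for integral weights -/
theorem val1 {D : Cd A B} {ε : D.O → D.O} (ep : D.Ep N₀ ε) (T : Tn 1 S a A B A B) (R : RN N G a)
    {γ : D.O} (hγ : D.Ω * D.J γ = w0 A B) (L0 : L ≠ 0) (hL : L.primeFactors = S') (s : S ⊆ S')
    (hN : N₀ ∣ L) {c : ℕ} (hc : c.Coprime L) {e : ℤ} (he : ε c = e) {f f' : ℕ → ℤ}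
    (p : Function.Periodic f L) (p' : Function.Periodic f' L)
    (t : ∀ k, k.Coprime L → f' (c ^ 2 * k) = f k) {Tg : Finset GQ} {β : GQ → D.O}
    (tv : Tv D.G (D.Hf L) Tg) (h : ∀ g ∈ Tg, D.Ac L g (β g)) :
    (∑ g ∈ Tg, (f (D.nm (β g)) : ℂ) * io (dT D c (ga g (D.tp L)))) * w0 A B = 2 * L * D.J γ *
      (c ^ 2 * Lw (al A B) (cS S' fun k => (f k : ℂ)) -
        c * e * Lw (al A B) (cS S' fun k => (f' k : ℂ))) :=
  (val ep T R hγ L0 hL s hN hc he (f := fun k => f k) (f' := fun k => f' k) (fun k => congrArg _ (p k))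
    (fun k => congrArg _ (p' k)) (fun k h => congrArg _ (t k h)) tv h).1

theorem Lw_real (a : ℕ → ℤ) (S' : Finset ℕ) (f : ℕ → ℤ) :
    conj (Lw a (cS S' fun k => (f k : ℂ))) = Lw a (cS S' fun k => (f k : ℂ)) := by
  rw [← P014T.Rk.Lw_conj]
  exact congrArg _ (funext fun n => by rw [cS]; split_ifs <;> simp)

theorem w0_ne (D : Cd A B) : w0 A B ≠ 0 := (ex_g1 D).1.ne'

variable [Pp] {D : ℕ}

/-- **the value for the logarithm** -/
theorem num1 (T : Tn 1 S a A B A B) (R : RN N G a) (D0 : D ≠ 0)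
    (hD : ∀ r : ℚ, ∃ k : ℤ, D * (Lw a fun n => ee (n * r)).re = k * w0 A B) (pS : pp ∈ S) {c : ℕ}
    {e : ℤ} (s0 : (c ^ 2 - c * e : ℤ) ≠ 0) : ∃ m : ℕ, Lw (al A B) (cS S 1) = 0 → ∀ (n q : ℕ)
      (W : ZMod q → ZMod (pp ^ n)) (b : Qb), q.Prime → q ∉ S →
      (∀ x y, x ≠ 0 → y ≠ 0 → W (x * y) = W x + W y) → W (-1) = 0 → ¬ q ∣ c →
      io b * w0 A B = c ^ 2 * Lw (al A B) (cS (insert q S) fun k => (W k).val) -
        c * e * Lw (al A B) (cS (insert q S) fun k => (W k - 2 * W c).val) →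
      ∀ ι : Qb →+* ℂ_[pp], ∃ x : Qb,
        io x * w0 A B = Lw (al A B) (cS (insert q S) fun k => (W k).val) ∧
        ‖ι (b / (c ^ 2 - c * e : ℤ) - x)‖ * (pp : ℝ) ^ n ≤ (pp : ℝ) ^ m ∧ ‖ι x‖ ≤ (pp : ℝ) ^ m := by
  have r1 : (1 : ℝ) < pp := Nat.one_lt_cast.2 one_lt
  obtain ⟨s, hs⟩ : ∃ s : ℤ, s = c ^ 2 - c * e := ⟨_, rfl⟩
  rw [← hs] at s0 ⊢
  obtain ⟨m, hm⟩ := pow_unbounded_of_one_lt ‖((D * (∏ p ∈ S, p : ℕ) * s : ℂ_[pp]))⁻¹‖ r1
  refine ⟨m, fun h0 n q W b hq qS mul W1 _ hb ι => ?_⟩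
  have := Fact.mk hq
  have S0 := P014T.Pl.Lw.pr_ne T.pm
  have L0 : q * ∏ p ∈ S, p ≠ 0 := mul_ne_zero hq.ne_zero S0
  have := NeZero.mk L0
  have dL : (1 : ℤ).natAbs ∣ q * ∏ p ∈ S, p := one_dvd _
  have ev : ∀ y, W (-y) = W y := fun y => by
    by_cases e : y = 0
    · rw [e, neg_zero]
    · rw [← neg_one_mul, mul _ _ (by simp) e, W1, zero_add]
  obtain ⟨U, hU⟩ : ∃ U : ZMod q → ℤ, ∀ y, U y =
      (((W y - 2 * W c).val : ℤ) - (W y).val - (-2 * W c).val) / pp ^ n := ⟨_, fun _ => rfl⟩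
  have eU : ∀ y, ((W y - 2 * W c).val : ℤ) - (W y).val - (-2 * W c).val = pp ^ n * U y := fun y => by
    rw [hU, Int.mul_ediv_cancel']
    rw [show (pp : ℤ) ^ n = (pp ^ n : ℕ) by simp, ← ZMod.intCast_zmod_eq_zero_iff_dvd]
    push_cast
    simp only [ZMod.natCast_zmod_val]
    ring
  obtain ⟨π, -⟩ : ∃ π : ZMod (q * ∏ p ∈ S, p) →+* ZMod q, True :=
    ⟨ZMod.castHom (dvd_mul_right _ _) _, trivial⟩
  set X := wt (q * ∏ p ∈ S, p) (ch 1) with hX
  have lw : ∀ f : ℕ → ℂ, Lw (al A B) (cS (insert q S) f) = Lw a fun j => X j * f j := fun f => by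
    rw [T.lw (Finset.subset_insert _ _), Finset.prod_insert qS]
    exact congrArg _ (funext fun j => by simp [hX, wt_nat dL, cp])
  have p1 := pw_mod L0 fun x => (X x * (W (π x)).val : ℂ)
  have p2 := pw_mod L0 fun x => (X x : ℂ)
  have p3 := pw_mod L0 fun x => ((X x * U (π x) : ℤ) : ℂ)
  simp only [map_natCast] at p1
  have q2 := (pw_const ((-2 * W c).val : ℂ)).op p2 (· * ·)
  have q3 := (pw_const ((pp : ℂ) ^ n)).op p3 (· * ·)
  have z2 : (Lw a fun j => (X j : ℂ)) = 0 := by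
    have := P014T.Rk.Lw_rm (w := fun _ => 1) R (pw_const 1) hq (fun j => by simp) S0 fun k => by
      obtain ⟨p, m, k⟩ := (hq.prime.dvd_finset_prod_iff _).1 k
      exact qS ((Nat.prime_dvd_prime_iff_eq hq (T.pm p m)).1 k ▸ m)
    rw [T.lw le_rfl] at h0
    simp only [Pi.one_apply, ch1, Int.cast_one, mul_one] at h0
    rw [h0, mul_zero] at this
    rw [← this]
    exact congrArg _ (funext fun j => by simp [hX, wt_nat dL, cp, ch1])
  obtain ⟨y, iy, hy, -⟩ := alg R hD (f := fun x => X x * U (π x)) fun x => by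
    simp only [hX, wt_neg dL rfl, map_neg, hU, ev]
  have e2 : ∀ j : ℕ, (X j * (W j - 2 * W c).val : ℂ) = X j * (W j).val +
      ((-2 * W c).val * X j + pp ^ n * (X j * U (π j) : ℤ)) := fun j => by
    have := congrArg (Int.cast : ℤ → ℂ) (eU j)
    rw [map_natCast]
    push_cast at this ⊢
    linear_combination (X j : ℂ) * this
  rw [lw fun k => (W k - 2 * W c).val] at hb
  simp only [e2] at hb
  rw [P014T.Rk.Lw_add R p1 (q2.op q3 (· + ·)), P014T.Rk.Lw_add R q2 q3, P014T.Rk.Lw_smul,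
    P014T.Rk.Lw_smul, z2, ← lw fun k => (W k).val] at hb
  have c1 {F : Type} [Field F] [CharZero F] : (D : F) ≠ 0 ∧ ((q * ∏ p ∈ S, p : ℕ) : F) ≠ 0 ∧
      (s : F) ≠ 0 := ⟨Nat.cast_ne_zero.2 D0, Nat.cast_ne_zero.2 L0, Int.cast_ne_zero.2 s0⟩
  have n1 : ‖(q : ℂ_[pp])‖ = 1 := Ah.nrm_odd Ah.two_lt fun k =>
    qS ((Nat.prime_dvd_prime_iff_eq pp_prime hq).1 k ▸ pS)
  have k3 : ∀ x : Qb, io x * w0 A B = Lw (al A B) (cS (insert q S) fun k => (W k).val) →
      ‖ι x‖ ≤ (pp : ℝ) ^ m := fun x h1 => by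
    obtain ⟨y₁, i₁, h₁, -⟩ := alg R hD (f := fun x => X x * (W (π x)).val) fun x => by
      simp only [hX, wt_neg dL rfl, map_neg, ev]
    simp only [map_natCast, Int.cast_mul, Int.cast_natCast] at h₁
    rw [← lw fun k => (W k).val, ← h1, ← mul_assoc] at h₁
    have q₁ : y₁ = D * (q * ∏ p ∈ S, p : ℕ) * x := (io : Qb →+* ℂ).injective (by
      simpa only [map_mul, map_natCast, RingHom.coe_coe] using mul_right_cancel₀ (Complex.ofReal_ne_zero.2 T.ne) h₁)
    obtain ⟨c1, c2, c3⟩ := c1 (F := ℂ_[pp])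
    rw [Nat.cast_mul] at c2
    have c4 := left_ne_zero_of_mul c2
    have c5 := right_ne_zero_of_mul c2
    rw [show ι x = (D * (∏ p ∈ S, p : ℕ) * s : ℂ_[pp])⁻¹ * (ι (s * y₁) / q) by
      simp only [q₁, map_mul, map_natCast, map_intCast, Nat.cast_mul]
      field_simp, norm_mul, norm_div, n1, div_one]
    exact (mul_le_of_le_one_right (norm_nonneg _) (Pl.nrm_le ι
      ((isIntegral_intCast s).mul i₁))).trans hm.le
  refine ⟨(b + pp ^ n * (c * e * y) / (D * (q * ∏ p ∈ S, p : ℕ))) / s,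
    (fun h1 h2 => ⟨h1, h2, k3 _ h1⟩) ?_ ?_⟩
  · obtain ⟨c1, c2, c3⟩ := c1 (F := ℂ)
    have hs' : (s : ℂ) = c ^ 2 - c * e := by exact_mod_cast hs
    simp only [map_div₀, map_mul, map_add, map_pow, map_natCast, map_intCast]
    field_simp
    linear_combination (D * (q * ∏ p ∈ S, p : ℕ) : ℂ) * hb + pp ^ n * c * e * hy -
      (D * (q * ∏ p ∈ S, p : ℕ) * Lw (al A B) (cS (insert q S) fun k => (W k).val) : ℂ) * hs'
  · obtain ⟨c1, c2, c3⟩ := c1 (F := ℂ_[pp])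
    rw [Nat.cast_mul] at c2
    have c4 := left_ne_zero_of_mul c2
    have c5 := right_ne_zero_of_mul c2
    rw [show ι (b / s - (b + pp ^ n * (c * e * y) / (D * (q * ∏ p ∈ S, p : ℕ))) / s) =
      -((D * (∏ p ∈ S, p : ℕ) * s : ℂ_[pp])⁻¹ * pp ^ n * (ι (c * e * y) / q)) by
        simp only [map_div₀, map_mul, map_sub, map_add, map_pow, map_natCast, map_intCast,
          Nat.cast_mul]
        field_simp
        ring, norm_neg, norm_mul, norm_mul, norm_div, n1, norm_pow, Ah.two_C, div_one,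
      mul_right_comm, mul_assoc ‖_‖, ← mul_pow, one_div, inv_mul_cancel₀ (zero_lt_one.trans r1).ne',
      one_pow, mul_one]
    exact (mul_le_of_le_one_right (norm_nonneg _) (Pl.nrm_le ι
      (((isIntegral_natCast c).mul (isIntegral_intCast e)).mul iy))).trans hm.le

end Vale.Agent.P014X.Zr
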