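import Vale.Agent.P014X.Fm.Psi
import Vale.Agent.P014X.Zr.Num

/-! # P014X, block Zr: the multiplier and the smoothing factor (helper5) -/

set_option autoImplicit false
set_option linter.all false

open scoped Classical ComplexConjugate

noncomputable section

namespace Vale.Agent.P014X.Zr

open Vale.Agent.P014U
open P014T.Top (w0)
open An Cf0 Fm.Psi QuadraticAlgebra

variable [Pp] {A B : ℤ} {D : Cd A B} {N M s : ℕ} {μ : D.O} {ε : D.O → D.O}

namespace Mu

theorem eta_star (D : Cd A B) : D.η * star D.η = 1 := by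
  have h := congrArg conj D.eta
  rw [Complex.conj_conj, map_mul, D.eta] at h
  refine (qd D).inj (mul_right_cancel₀ D.Ω0 ?_)
  rw [map_mul, JH_eq, JH_eq, J_star, map_one, one_mul]
  conv_rhs => rw [h]
  simp only [Cd.J]
  ring

theorem dl_star (a b : ℤ) : star (dl a b ℤ) = -dl a b ℤ := QuadraticAlgebra.ext (by simp [dl]; ring) (by simp [dl])

theorem anti {a b : ℤ} {y : Qa a b ℤ} (h : star y = -y) : 2 * y = y.im * dl a b ℤ := by
  have := congrArg QuadraticAlgebra.re h
  refine QuadraticAlgebra.ext ?_ ?_ <;> simp [dl] at this ⊢ <;> linarith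

/-- the real part -/
theorem real (x : D.O) : (D.Ω * D.J (x + D.η * star x)).im = 0 := by
  have : D.Ω * D.J (x + D.η * star x) = D.Ω * D.J x + conj (D.Ω * D.J x) := by
    rw [map_mul conj, D.eta, ← J_star, ← JH_eq D (x + _), map_add, map_mul, JH_eq, JH_eq, JH_eq, Cd.J,
      Cd.J, Cd.J]
    ring
  rw [this, Complex.add_conj, Complex.ofReal_im]

end Mu

open Mu

/-- **the multiplier exists** -/
theorem ex_mu (D : Cd A B) : ∃ μ, D.Mu μ := by
  haveI := dom D
  haveI := D.pid
  obtain ⟨γ, h⟩ := ex_g0 D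
  have g0 : dl D.a D.b ℤ * γ ≠ 0 := mul_ne_zero (fun e => by simpa [dl] using congrArg im e)
    fun e => w0_ne D (by simpa [e, Cd.J] using h.symm)
  obtain ⟨n, μ, d, e⟩ := WfDvdMonoid.max_power_factor' g0 (x := (pp : D.O)) fun u => by
    have := Kl2.nm_unit u
    rw [Num.nm_nat] at this
    exact (Fact.out : pp.Prime).ne_one (by simpa using this)
  refine ⟨μ, mul_left_cancel₀ (pw_ne (D := D) n) ?_, d⟩
  have k : star (dl D.a D.b ℤ * γ) * D.η = -(dl D.a D.b ℤ * γ) := by
    rw [star_mul', dl_star]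
    linear_combination (-dl D.a D.b ℤ) * g_star h
  rw [e, star_mul', star_pow, star_natCast] at k
  linear_combination k

/-- **the multiplier against the real period** -/
theorem mu_gam (h : D.Mu μ) : ∃ (γ : D.O) (k : ℤ), D.Ω * D.J γ = w0 A B ∧ ¬ (pp : ℤ) ∣ k ∧
    2 * μ * star γ = k * dl D.a D.b ℤ := by
  obtain ⟨-, γ, e, f⟩ := ex_g1 D
  refine ⟨γ, (μ * star γ).im, e, fun d => h.2 ?_, ?_⟩
  · have k (x : D.O) : (pp : ℤ) ∣ (μ * star x).im := by
      obtain ⟨n, q⟩ := f _ (real x)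
      have q' := congrArg star q
      rw [star_add, star_mul', star_star, star_mul', star_intCast] at q'
      have z : μ * star x - star (μ * star x) = n * (μ * star γ) := by
        rw [star_mul', star_star]
        linear_combination μ * q' - x * star D.η * h.1 + x * star μ * eta_star D
      have z' : 2 * (μ * star x).im = n * (μ * star γ).im := by
        have := congrArg im z
        rw [im_sub, im_star, im_mul (n : D.O), re_intCast, im_intCast] at this
        simp only [Int.cast_id] at this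
        linear_combination this
      refine ((Nat.prime_iff_prime_int.1 Fact.out).dvd_or_dvd (z' ▸ d.mul_left n)).resolve_left fun t => ?_
      exact Pp.odd ((Nat.prime_dvd_prime_iff_eq Fact.out Nat.prime_two).1 (by exact_mod_cast t))
    exact dvd_iff.2 ⟨by simpa [mul_comm D.b] using k ω, by simpa using k 1⟩
  · rw [mul_assoc]
    refine anti ?_
    rw [star_mul', star_star]
    linear_combination star γ * h.1 - star μ * g_star e

/-- **the smoothing factor** -/
theorem sf_eq {χ : D.G →* Qa D.a D.b ℤ_[pp]} {g : D.G} (ep : D.Ep N ε) (fm : D.Fm N M) (ps : D.Ps χ)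
    (ga : D.Ga M s g) : ∃ e : ℤ, e ^ 2 = 1 ∧ ε s = e ∧ sf s χ g = (s ^ 2 - s * e : ℤ) ∧
      (s ^ 2 - s * e : ℤ) ≠ 0 ∧ χ g⁻¹ = (e * s : ℤ) ∧
      ∀ n, N ∣ M * pp ^ n → D.Ac (D.mp M n) g (e * s) := by
  haveI := dom D
  have ne (n : ℕ) : D.mp M n ≠ 0 :=
    nat_ne (mul_ne_zero fm.ne (pow_ne_zero n (Fact.out : pp.Prime).ne_zero))
  have k (n : ℕ) (d : N ∣ M * pp ^ n) : IsUnit (ε s) ∧ D.Ac (D.mp M n) g (ε s * s) := by
    obtain ⟨ζ, u, a⟩ := ga.ac n
    have c : IsCoprime (s : D.O) (D.mp M n) := Nat.Coprime.cast (.mul_right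
      (ga.cop.coprime_dvd_right ⟨6 * pp, by ring⟩)
      ((ga.cop.coprime_dvd_right ⟨6 * M, by ring⟩).pow_right n))
    have o := (ep.ac _ (ne n) (Nat.cast_dvd_cast d) _ ((isCoprime_mul_unit_left_left u _ _).2 c)).1 ⟨_, a⟩
    obtain rfl : ε s = ζ := by
      rw [ep.mul] at o
      linear_combination ζ * o - ε s * ep.inv ζ u
    exact ⟨u, a⟩
  obtain ⟨n₀, d₀⟩ := fm.dv
  obtain ⟨e, e2, he⟩ : ∃ e : ℤ, e ^ 2 = 1 ∧ ε s = e := by
    have := (ep.int s).resolve_right (by simpa using (k n₀ d₀).1.ne_zero)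
    rw [Int.cast_natCast] at this
    rcases sq_eq_one_iff.1 this with t | t
    exacts [⟨1, by simp, by simp [t]⟩, ⟨-1, by simp, by simp [t]⟩]
  have c : χ g * ((e * s : ℤ) : Qa D.a D.b ℤ_[pp]) = 1 := qm_ext fun n => by
    have := ps n g (e * s) (he ▸ ac_dvd (ne (n + n₀)) (by
      exact_mod_cast Nat.cast_dvd_cast (α := D.O) (m := pp ^ n) ⟨M * pp ^ n₀, by ring⟩)
      (k _ (d₀.trans ⟨pp ^ n, by ring⟩)).2)
    simpa using this
  have c' : χ g⁻¹ = (e * s : ℤ) := by
    rw [← mul_one (χ g⁻¹), ← c, ← mul_assoc, ← map_mul, inv_mul_cancel, map_one, one_mul]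
  refine ⟨e, e2, he, ?_, ?_, c', fun n d => he ▸ (k n d).2⟩
  · rw [sf, c', ← Nat.cast_pow, re_sub, re_natCast, re_intCast]
    push_cast
    ring
  · have := ga.lt
    rcases sq_eq_one_iff.1 e2 with rfl | rfl <;> nlinarith

end Vale.Agent.P014X.Zr
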