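import Vale.Agent.P014X.St2
import Vale.Agent.P014T.Zr.Nu2
import Vale.Agent.P014U.Tq.Lhu

/-! # P014X, block Zr: the newform outside the bad primes (helper5) -/

set_option autoImplicit false
set_option linter.all false

noncomputable section

namespace Vale.Agent.P014X.Zr

open Vale.Agent.P014U
open P004M.TE (al)
open P014T.Zr.Nm (Tn)

variable [Pp] {A B : ℤ} {D : Cd A B} {N M l : ℕ}

/-- **primes outside the set are good** -/
theorem sb_bad (cg : D.Cg N) (fm : D.Fm N M) (hl : l.Prime) (n : l ∉ Sb M) :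
    ¬ (l : ℤ) ∣ 2 * pp * (4 * A ^ 3 + 27 * B ^ 2) ∧ ¬ (l : ℤ) ∣ D.b ^ 2 + 4 * D.a ∧ ¬ l ∣ N := by
  have p (d : l ∣ pp) : False :=
    n ((Nat.prime_dvd_prime_iff_eq hl Fact.out).1 d ▸ Finset.mem_insert_self _ _)
  have k : ¬ l ∣ N := fun d => by
    obtain ⟨j, e⟩ := fm.dv
    exact (hl.dvd_mul.1 (d.trans e)).elim
      (fun t => n (Finset.mem_insert_of_mem (Nat.mem_primeFactors.2 ⟨hl, t, fm.ne⟩)))
      fun t => p (hl.dvd_of_dvd_pow t)
  refine ⟨fun d => ?_, fun d => n (fm.disc l hl d), k⟩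
  rw [mul_right_comm] at d
  exact ((Nat.prime_iff_prime_int.1 hl).dvd_or_dvd d).elim
    (fun t => k ((cg.pf l hl).2 (t.trans ⟨3, by ring⟩))) fun t => p (by exact_mod_cast t)

theorem pm_sb (M : ℕ) : P014T.Top.Pm (Sb M) := fun q h => (Finset.mem_insert.1 h).elim
  (fun e => e ▸ Fact.out) Nat.prime_of_mem_primeFactors

/-- **the newform** -/
theorem tn_of (md : P014T.Top.MODN) (lgu : P014T.Top.LGU) (cg : D.Cg N) (fm : D.Fm N M) :
    ∃ N' G a, P014T.Top.Nf A B N' G a ∧ Tn 1 (Sb M) a A B A B := by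
  obtain ⟨N', G, a, nf⟩ := md A B D.el
  refine ⟨N', G, a, nf, P014T.Zr.Nm.tn_bad nf.rn D.el ⟨one_ne_zero, by simp, by simp⟩ P014T.Top.ad_one
    one_pos (pm_sb M) fun q hq h => by_contra fun n => ?_⟩
  have pq := Nat.prime_iff_prime_int.1 hq
  have b : ¬ (q : ℤ) ∣ 2 * (4 * A ^ 3 + 27 * B ^ 2) := fun d =>
    (sb_bad cg fm hq n).1 (d.trans ⟨pp, by ring⟩)
  have r := P014T.Lk.al_rec hq b 0
  rw [zero_add, zero_add, pow_one, pow_zero, show al A B 1 = 1 from
    (P004N.H169.LF.LFunction_mult _).map_one] at r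
  rcases Tq.lhu D.el nf.rn (lgu A B D.el N' G a nf) hq (fun e => b ⟨_, by rw [e]; rfl⟩) with
      ⟨e, e'⟩ | ⟨e, e'⟩
  · rw [e, e'] at r
    exact pq.ne_zero (by linarith)
  · refine h.elim (fun d => ?_) fun t => t e.symm
    rw [mul_one, mul_right_comm] at d
    refine (pq.dvd_or_dvd d).elim b fun t => ?_
    have := (P004N.H461.pfCf N' G a nf.rn).bad q hq (by exact_mod_cast t) 1
    rw [pow_one, e, e', r] at this
    exact pq.ne_zero (by linarith)

end Vale.Agent.P014X.Zr
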