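import Vale.Agent.P014X.Zr.Unit
import Vale.Agent.P014X.Zr.Nrm
import Vale.Agent.P014X.Zr.Mu
import Vale.Agent.P014X.Zr.Tn
import Vale.Agent.P022K.G2.Hb

/-! # P014X, block Zr: the row `RR` (helper58) -/

set_option autoImplicit false
set_option linter.all false

open NumberField
open scoped Classical

noncomputable section

namespace Vale.Agent.P014X.Zr

open Vale.Agent.P022 (Qb GQ)
open Vale.Agent.P022D.W (dec)
open Vale.Agent.P022K.G2 (In)
open Vale.Agent.P014U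
open P004M.TE (Pt ga al ga_mul ga_one)
open Vale.Agent.P004F (hq)
open P027M.M (io)
open X4S.Ga (K O)
open Dr (Zn)
open P014T.Top (El w0 cS nq MODN LGU)
open P014T.Rk (Lw)
open P014U.Top (Rc)
open Ah (Ind am)
open Cd (Tv)
open Fm.Psi (qm_eq qm_star ac_dvd)
open PadicInt (toZModPow)
open TrivSqZeroExt (inl inr fstHom sndHom inlHom)

variable [Pp] {A B : ℤ} {D : Cd A B} {n : ℕ}

/-- the reduction -/
abbrev rd (D : Cd A B) (n : ℕ) : D.O →+* Qa D.a D.b (Zn n) := qm _ _ (Int.castRingHom (Zn n))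

theorem rd_lift (x : Qa D.a D.b (Zn n)) : rd D n ⟨x.re.val, x.im.val⟩ = x := by
  ext <;> simp [qm]

omit [Pp] in
theorem up_mul {g k : GQ} (a : g ∈ D.G) (b : k ∈ D.G) : up D (g * k) = up D g * up D k :=
  Subtype.ext (by rw [up_val (mul_mem a b), Subgroup.coe_mul, up_val a, up_val b])

section

variable {R : Type} [CommRing R] (j : Zn n →+* R) (χ : D.G →* R) {l : ℕ} {W : ZMod l → Zn n}
  {e : GQ → Zn n} (X : Rb.Lx l n W e)

/-- the character with values in the dual numbers -/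
def du : D.G →* DualNumber R where
  toFun g := inl (χ g) + inr (χ g * j (e g))
  map_one' := by simp [X.hm (one_mem _)]
  map_mul' g k := by
    ext
    · simp
    · simp [X.add]
      ring

theorem du_fst : (fstHom R R R).toRingHom.toMonoidHom.comp (du j χ X) = χ := by
  ext g
  simp [du]

theorem du_zc (rw : D.Rw) (α : D.O) {m : D.O} (m0 : m ≠ 0) (g : D.G) :
    (D.zc α m ((inlHom R R).comp j) (du j χ X) g).fst = D.zc α m j χ g := by
  have := rw.map n α m _ _ (fstHom R R R).toRingHom ((inlHom R R).comp j) (du j χ X) g m0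
  rwa [du_fst, show (fstHom R R R).toRingHom.comp ((inlHom R R).comp j) = j from
    RingHom.ext fun _ => rfl] at this

theorem du_snd (g : D.G) (r : DualNumber R) : (D.ak ((inlHom R R).comp j) (du j χ X) g * r).snd =
    D.ak j χ g * r.snd + D.ak j χ g * (j (e g) * r.fst) := by
  simp [du, Cd.ak]
  ring

end

variable (cf : D.Cf)
include cf

theorem pt_rd (y : D.O) : D.pt n (rd D n y) = D.act y (D.tp (pp ^ n)) :=
  (Cf0.act_eq D (Rx.pw_ne n)).2 (by rw [← Nat.cast_pow]; exact qm_eq.1 (rd_lift _))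

/-- the points -/
def la (cf : D.Cf) (n : ℕ) (μ : D.O) : Qa D.a D.b (Zn n) →+ Pt A B :=
  .mk' (fun x => D.pt n (rd D n μ * x)) fun x y => by
    rw [← rd_lift x, ← rd_lift y, ← map_add, ← map_mul, ← map_mul, ← map_mul, pt_rd cf, pt_rd cf,
      pt_rd cf, mul_add, map_add]
    rfl

theorem la_rd (μ y : D.O) : la cf n μ (rd D n y) = D.act (μ * y) (D.tp (pp ^ n)) := by
  rw [← pt_rd cf, map_mul]
  rfl

theorem la_j (μ : D.O) (k : Zn n) :
    la cf n μ (algebraMap (Zn n) _ k) = k.val • D.act μ (D.tp (pp ^ n)) := by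
  rw [← Rx.act_nat (D := D), ← act_mul, mul_comm, ← la_rd cf, map_natCast,
    ← map_natCast (algebraMap (Zn n) _), ZMod.natCast_zmod_val]

variable {χ : D.G →* Qa D.a D.b ℤ_[pp]} (ps : D.Ps χ)

include ps in
theorem la_ak (μ : D.O) (g : D.G) (r : Qa D.a D.b (Zn n)) :
    la cf n μ (D.ak (algebraMap (Zn n) _) (qc (toZModPow n) χ) g * r) = ga g.1 (la cf n μ r) := by
  obtain ⟨β, -, a⟩ := cf.ac _ (Rx.pw_ne n) g.1 g.2
  have e : Pp.ec n g = D.nm β := Nrm.ec_eq (cf.det _ g β (pow_ne_zero n pp_ne) (by rwa [Nat.cast_pow]))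
  have k : D.ak (algebraMap (Zn n) _) (qc (toZModPow n) χ) g = rd D n β := by
    have := congrArg (rd D n) (Num.nm_c β)
    rw [map_natCast, map_mul] at this
    show algebraMap (Zn n) _ (Pp.ec n g) * qm _ _ (toZModPow n) (χ g) = _
    rw [e, map_natCast, this, mul_assoc, mul_comm (rd D n (star β)), ps n g β a, mul_one]
  rw [k, ← rd_lift r, ← map_mul, la_rd, la_rd, cf.lin _ g.2, a.2, ← act_mul, mul_right_comm, mul_assoc]

include ps in
theorem tr_of {L : ℕ} (L0 : L ≠ 0) (d : pp ^ n ∣ L) (hf : D.Hm L = D.Hf L) :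
    D.Tr L (qc (toZModPow n) χ) := fun g m => by
  have := ps n g 1 (ac_dvd (Rx.nat_ne D L0) (by exact_mod_cast Nat.cast_dvd_cast (α := D.O) d)
    ((Cf0.mem_Hf D).1 (hf ▸ m)))
  rwa [star_one, map_one, mul_one] at this

omit [Pp] in
theorem xt_cq (y : D.G → Pt A B) :
    (D.xt fun g => y g + ga D.c (y (D.cg g))) = cq D fun g => y (up D g) := funext fun g => by
  by_cases m : g ∈ D.G
  · rw [cq_G m, Cd.xt, dif_pos m, up, dif_pos m]
    rfl
  · have m' := (cf.cG g).1 m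
    rw [Cd.xt, dif_neg m, dif_pos m']
    simp only [cq, Fintype.sum_bool, ug, cb, show sg D g = true from decide_eq_true m]
    simp only [Bool.xor_self, Bool.xor_false, Bool.false_eq_true, if_true, if_false, one_mul, mul_one,
      ga_one]
    rw [up, dif_pos m', show D.cg ⟨_, m'⟩ = up D (D.c * (g * D.c) * D.c) from rfl, mul_assoc,
      mul_assoc, cf.c2, mul_one]

variable (rw : D.Rw) {a L : ℕ} (ad : D.Ad pp a L) {R : Type} [CommRing R] {j : Zn n →+* R}
  {ψ : D.G →* R} (t : D.Tr L ψ) (lam : R →+ Pt A B)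
include rw ad t

theorem cq_in (hf : D.Hm L = D.Hf L) {S : Finset ℕ} (hS : ∀ l : ℕ, l.Prime → l ∉ S →
    ¬ (l : ℤ) ∣ 6 * (4 * A ^ 3 + 27 * B ^ 2) ∧ l ≠ pp ∧ ¬ l ∣ L) {i : GQ} (m : i ∈ In S) :
    cq D (fun g => lam (D.zc a L j ψ (up D g))) i = 0 := by
  have k : ∀ i ∈ In S, i ∈ D.G ∧ D.zc a L j ψ (up D i) = 0 := fun i ⟨l, s, P, o, m⟩ => by
    obtain ⟨s1, s2, s3⟩ := hS l o.1 s
    have := cf.good l P i o s1 m _ ad.ne (Ep.nP o (o.1.coprime_iff_not_dvd.2 s3).symm)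
    exact ⟨this.1, rw.unr n a L R j ψ l P _ ad t o s2 (by rwa [up_val this.1])
      (by rwa [up_val this.1, hf])⟩
  have := (k _ (P022K.G2.Hb.in_conj m D.c)).2
  rw [c_inv cf] at this
  rw [cq_G (k i m).1, (k i m).2, this, map_zero, map_zero, add_zero]

theorem cq_op : ∃ U : Set GQ, IsOpen U ∧ 1 ∈ U ∧ ∀ u ∈ U, ∀ lam : R →+ Pt A B,
    cq D (fun g => lam (D.zc a L j ψ (up D g))) u = 0 := by
  obtain ⟨W, o, k⟩ := (rw.co n a L R j ψ ad t).lc
  refine ⟨D.G ∩ (W ∩ (fun u => D.c * u * D.c) ⁻¹' W), cf.opn.inter (o.inter (o.preimage (by fun_prop))),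
    ⟨one_mem D.G, one_mem W, by simpa [cf.c2] using one_mem W⟩, fun u ⟨m, m1, m2⟩ lam => ?_⟩
  rw [cq_G m, k _ (by rwa [up_val m]), k _ (by rwa [up_val (cj_mem cf m)]), map_zero, map_zero, add_zero]

theorem cq_c : cq D (fun g => lam (D.zc a L j ψ (up D g))) D.c = 0 := by
  have := (rw.co n a L R j ψ ad t).coc 1 1
  rw [mul_one, map_one, one_mul, left_eq_add] at this
  refine Finset.sum_eq_zero fun b _ => ?_
  beta_reduce
  rw [show ug D b D.c = 1 by cases b <;> simp [ug, cb, sg, c_not cf, cf.c2],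
    show up D 1 = 1 from up_coe 1, this, map_zero, map_zero]

omit cf rw ad t

theorem un2 {x : Zn n} (h : x + x = 0) : x = 0 :=
  ((ZMod.isUnit_iff_coprime 2 _).2 (((Nat.coprime_primes Nat.prime_two pp_prime).2
    pp_ne_two.symm).pow_right n)).mul_right_eq_zero.1 (by rw [Nat.cast_ofNat, two_mul, h])

theorem ad_of {s L : ℕ} (L0 : L ≠ 0) (d : pp ^ 2 ∣ L) (c : s.Coprime (6 * L)) : D.Ad pp s L :=
  ⟨Rx.nat_ne D L0, by exact_mod_cast Nat.cast_dvd_cast (α := D.O) d,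
    by exact_mod_cast Nat.Coprime.cast (R := D.O) c⟩

/-- **row RR** -/
theorem _root_.Vale.Agent.P014X.rr (raw : RAW) (ep : EP) (md : MODN) (lgu : LGU) : RR := by
  intro A B D N M χ s g μ cf cg eu es fm ps gs mu
  have h := D.el
  have rw := raw A B D cf es
  obtain ⟨ε, ep⟩ := ep A B D N cf cg
  obtain ⟨N', G, a, nf, tn⟩ := tn_of md lgu cg fm
  obtain ⟨D₀, D0, hD⟩ := P014T.Lk.hd h nf
  obtain ⟨ρ, hρ⟩ := tn.rat nf.rn D0 hD
  obtain ⟨e, -, he, hs, s0, -⟩ := sf_eq ep fm ps gs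
  obtain ⟨w1, γ, hγ, pγ⟩ := ex_g1 D
  have w2 : (w0 A B : ℂ) ≠ 0 := Complex.ofReal_ne_zero.2 w1.ne'
  have g0 : γ ≠ 0 := fun z => w2 (by rw [← hγ, z, ← Cf0.JH_eq, map_zero, mul_zero])
  have hu := unit cf pγ h g0 (by rw [hγ, Complex.ofReal_im]) mu.1 mu.2
  obtain ⟨P, o⟩ := P022K.GW.Pl.ex_ov pp_prime
  obtain ⟨ι, hι⟩ := Ah.ex_ind o
  obtain ⟨lg, lk⟩ := Lc.ex_lk (P014U.Rx.sI_ne h) (P014U.Rx.md A B) hι
  have pS : pp ∈ Sb M := Finset.mem_insert_self _ _
  obtain ⟨m₀, H⟩ := num1 tn nf.rn D0 hD pS s0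
  obtain ⟨n₀, dN⟩ := fm.dv
  have sK {F : Type} [Field F] [CharZero F] : ((s ^ 2 - s * e : ℤ) : F) ≠ 0 := Int.cast_ne_zero.2 s0
  refine ⟨P, ι, lg, ρ, max m₀ s, o, hι, lk, hs ▸ Int.cast_ne_zero.2 s0, hρ,
    fun m n mm => ⟨n + n₀ + 2, fun n' le => ?_⟩⟩
  simp only [max_le_iff] at mm
  obtain ⟨L, hL⟩ : ∃ L, L = M * pp ^ n' := ⟨_, rfl⟩
  have L0 : L ≠ 0 := hL ▸ mul_ne_zero fm.ne (pow_ne_zero _ pp_ne)
  have pL : ∀ k, k ≤ n' → pp ^ k ∣ L := fun k i => hL ▸ (pow_dvd_pow _ i).mul_left _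
  have NL : N ∣ L := hL ▸ dN.trans (mul_dvd_mul_left _ (pow_dvd_pow _ (by omega)))
  have fL : L.primeFactors = Sb M := by
    rw [hL, Nat.primeFactors_mul fm.ne (pow_ne_zero _ pp_ne), Nat.primeFactors_prime_pow (by omega) pp_prime,
      Finset.union_comm, ← Finset.insert_eq]
  have cL : s.Coprime (6 * L) := by
    rw [hL, ← mul_assoc]
    exact gs.cop.coprime_mul_right_right.mul_right (gs.cop.coprime_mul_left_right.pow_right _)
  have hf : ∀ {L : ℕ}, L ≠ 0 → N ∣ L → D.Hm L = D.Hf L := fun a b =>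
    cg.hf _ (Rx.nat_ne D a) (Nat.cast_dvd_cast b)
  have N2 : 2 ∣ N := (cg.pf 2 Nat.prime_two).2 ⟨3 * _, by rw [← mul_assoc]; rfl⟩
  have ex : ∀ {L : ℕ}, L ≠ 0 → ∃ β : GQ → D.O, ∀ g ∈ D.G, D.Ac L g (β g) := fun {L} a =>
    Classical.skolem (p := fun g β => g ∈ D.G → D.Ac L g β) |>.1 fun g => by
      by_cases k : g ∈ D.G
      · exact (Cf0.ac_ex (Rx.nat_ne D a) k).imp fun _ e _ => e
      · exact ⟨0, fun i => (k i).elim⟩
  have bad : ∀ {L : ℕ} {S : Finset ℕ}, L ≠ 0 → L.primeFactors = S → Sb M ⊆ S → ∀ l : ℕ, l.Prime → l ∉ S →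
      ¬ (l : ℤ) ∣ 6 * (4 * A ^ 3 + 27 * B ^ 2) ∧ l ≠ pp ∧ ¬ l ∣ L := fun a b c l p k =>
    ⟨fun d => (sb_bad cg fm p fun i => k (c i)).2.2 ((cg.pf l p).2 d), fun i => k (c (i ▸ pS)),
      fun d => k (b ▸ Nat.mem_primeFactors.2 ⟨p, d, a⟩)⟩
  have ad := ad_of (D := D) L0 (pL 2 (by omega)) cL
  have tr := tr_of cf ps L0 (pL n (by omega)) (hf L0 NL)
  rw [show D.zE χ μ s (D.mp M n') n = _ from xt_cq cf _, Cd.mp, ← hL, hs]
  change Ct.Zr _ _ _ _ _ _ _ _ _ _ (cq D fun g => la cf n μ (D.zc s L _ _ (up D g)))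
  have tor : ∀ {R : Type} [CommRing R] (j : Zn n →+* R) (lam : R →+ Pt A B) (y : GQ → R) g,
    pp ^ n • cq D (fun g => lam (y g)) g = 0 := fun j lam y => cq_tor fun g => lam_tor j lam _
  have un : ∀ {F : ℤ}, ¬ (pp : ℤ) ∣ F → ∃ u : ℤ_[pp]ˣ, ∀ x : ℤ, (((u : ℤ_[pp]) * x : ℤ_[pp]) : K) = F * x :=
    fun k => ⟨(P014U.Zr.un_int k).unit, fun x => by simp⟩
  refine ⟨?_, funext (tor (algebraMap _ _) _ _), ?_, fun ρ0 l W c X lS ml W1 WS => ?_⟩
  · have co := cq_tw cf (y := fun g => la cf n μ (D.zc s L _ _ (up D g))) (y₀ := 0) (e := 0)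
      (fun _ _ => rfl) fun g a k b => by
        rw [up_mul a b, (rw.co n s L _ _ _ ad tr).coc, map_add, la_ak cf ps, up_val a, Pi.zero_apply,
          zero_zsmul, add_zero]
    simp only [Pi.zero_apply, zero_zsmul, add_zero] at co
    obtain ⟨U, u1, u2, u3⟩ := cq_op cf rw ad tr
    exact ⟨P004S.lc_of_open u1 u2 fun g u m => by rw [co, u3 u m, map_zero, add_zero], co,
      ⟨n, tor (algebraMap _ _) _ _⟩, fun i => cq_in cf rw ad tr _ (hf L0 NL) (bad L0 fL le_rfl),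
      cq_c cf rw ad tr _⟩
  · obtain ⟨F, θ, b, F0, a1, a2, -, rc⟩ := core cf h eu rw hι lk ad (hf L0 NL) (N2.trans NL)
      (pL n (by omega)) tr (w := 1) (Γ := ⊤) le_top trivial (fun g _ => la_ak cf ps μ g)
      (fun g k => by rw [la_ak cf ps, la_j, Pi.one_apply, one_zsmul]) (fun _ _ _ _ _ => rfl) g0 hu
      fun T tv => by
        obtain ⟨β, hβ⟩ := ex L0
        simpa only [Pi.one_apply, Int.cast_one] using val ep tn nf.rn hγ L0 fL le_rfl NL
          cL.coprime_mul_left_right he (f := 1) (f' := 1) (fun _ => rfl) (fun _ => rfl) (fun _ _ => rfl)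
          tv fun g m => hβ g (tv.1 g m)
    have a3 : b = (s ^ 2 - s * e : ℤ) * ρ := (io : Qb →+* ℂ).injective (mul_right_cancel₀ w2 (by
      rw [RingHom.coe_coe, a2, hρ, map_mul, map_intCast, map_ratCast]
      push_cast
      ring))
    have a4 : θ = (s ^ 2 - s * e : ℤ) * ρ := am.injective (by
      rw [a1, a3, map_mul, map_mul, map_intCast, map_intCast, map_ratCast, map_ratCast])
    obtain ⟨u, k⟩ := un F0
    exact ⟨u, P014U.Rx.rc_mono (by rwa [k, mul_assoc, ← a4]) (Nat.zero_le m)⟩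
  · obtain ⟨b1, b2, -⟩ := sb_bad cg fm X.pr lS
    obtain ⟨b6, lp, lL⟩ := bad L0 fL le_rfl l X.pr lS
    have := Fact.mk X.pr
    have ls : ¬ l ∣ s := fun d => (Nat.le_of_dvd (zero_lt_one.trans gs.lt) d).not_gt (by omega)
    have L1 := mul_ne_zero L0 X.pr.ne_zero
    have NL' := NL.mul_right l
    have fL' : (L * l).primeFactors = insert l (Sb M) := by
      rw [Nat.primeFactors_mul L0 X.pr.ne_zero, X.pr.primeFactors, fL, Finset.union_comm,
        ← Finset.insert_eq]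
    have cL' : s.Coprime (6 * (L * l)) :=
      mul_assoc 6 L l ▸ cL.mul_right (X.pr.coprime_iff_not_dvd.2 ls).symm
    have ad' := ad_of (D := D) L1 ((pL 2 (by omega)).mul_right l) cL'
    have tr' := tr_of cf ps L1 ((pL n (by omega)).mul_right l) (hf L1 NL')
    have cβ : ∀ g β, D.Ac (L * l : ℕ) g β → c g = W (D.nm β) := fun g β k => X.eq g _ fun z i =>
      cf.det _ g β L1 k z (by rw [pow_mul', i, one_pow])
    have cH : ∀ g ∈ D.Hf (L * l : ℕ), c g = 0 := fun g k => by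
      rw [cβ g 1 ((Cf0.mem_Hf D).1 k), An.Kl2.nm_unit isUnit_one, Nat.cast_one, X.one]
    have c1 : c 1 = 0 := X.hm (one_mem _)
    have cc : c D.c = 0 := un2 (by rw [← X.add, cf.c2, c1])
    have t1 : D.Tr (L * l : ℕ) (du (algebraMap (Zn n) _) (qc (toZModPow n) χ) X) := fun g k => by
      simp only [du, MonoidHom.coe_mk, OneHom.coe_mk]
      rw [tr' g k, cH g (hf L1 NL' ▸ k), map_zero, mul_zero, TrivSqZeroExt.inr_zero, add_zero]
      rfl
    let lam := (la cf n μ).comp (sndHom (Qa D.a D.b (Zn n)) (Qa D.a D.b (Zn n))).toAddMonoidHom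
    have hl : ∀ (g : D.G) r, lam (D.ak ((inlHom _ _).comp (algebraMap (Zn n) _))
        (du (algebraMap (Zn n) _) (qc (toZModPow n) χ) X) g * r) =
        ga g.1 (lam r) + ((c g).val : ℤ) • ga g.1 (la cf n μ r.fst) := fun g r => by
      show la cf n μ (TrivSqZeroExt.snd _) = _
      rw [du_snd, map_add, la_ak cf ps, la_ak cf ps, ← ZMod.natCast_zmod_val (c g), map_natCast,
        ← nsmul_eq_mul, map_nsmul, map_nsmul, ZMod.natCast_zmod_val, natCast_zsmul]
      rfl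
    obtain ⟨F, θ, b, F0, a1, a2, zn, rc⟩ := core cf h eu rw hι lk ad' (hf L1 NL') (N2.trans NL')
      ((pL n (by omega)).mul_right l) t1 (lam := lam) (w := fun g => (c g).val)
      (Γ := { carrier := {g | c g = 0}
              mul_mem' := fun {x y} (a : c x = 0) (b : c y = 0) => show c _ = 0 by rw [X.add, a, b, add_zero]
              one_mem' := c1
              inv_mem' := fun {x} (a : c x = 0) => show c _ = 0 by
                rw [← c1, ← mul_inv_cancel x, X.add, a, zero_add] })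
      (fun g => X.dz o lp.symm (WS pp pS)) cc
      (fun g (k : c g = 0) r => by rw [hl, k, ZMod.val_zero, Nat.cast_zero, zero_zsmul, add_zero])
      (fun g k => by
        rw [hl, show lam _ = 0 from map_zero (la cf n μ), map_zero, zero_add, ← la_j cf]
        rfl)
      (fun g (k : c g = 0) x y i => by rw [X.add, X.add, k, cH y i, zero_add, add_zero]) g0 hu
      fun T tv => by
        obtain ⟨β, hβ⟩ := ex L1
        have := val ep tn nf.rn hγ L1 fL' (Finset.subset_insert _ _) NL' cL'.coprime_mul_left_right he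
          (f := fun k => (W k).val) (f' := fun k => (W k - 2 * W s).val) (fun k => by simp)
          (fun k => by simp) (fun k i => by
            have s1 : (s : ZMod l) ≠ 0 := fun z => ls ((ZMod.natCast_eq_zero_iff _ _).1 z)
            have k1 : (k : ZMod l) ≠ 0 := fun z => (X.pr.coprime_iff_not_dvd.1
              i.coprime_mul_left_right.symm) ((ZMod.natCast_eq_zero_iff _ _).1 z)
            rw [Nat.cast_mul, Nat.cast_pow, X.mul _ _ (pow_ne_zero 2 s1) k1, sq, X.mul _ _ s1 s1, two_mul,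
              add_sub_cancel_left]) tv fun g m => hβ g (tv.1 g m)
        rwa [Finset.sum_congr rfl fun g m => by rw [← cβ g _ (hβ g (tv.1 g m)), ← Int.cast_natCast],
          Finset.sum_congr (s₂ := T) (f := fun g => ((W (D.nm (β g))).val : ℂ) * _) rfl fun g m => by
            rw [← cβ g _ (hβ g (tv.1 g m)), ← Int.cast_natCast]] at this
    obtain ⟨x, x1, x2, -⟩ := H (by rw [hρ, ρ0, Rat.cast_zero, zero_mul]) n l W b X.pr lS X.mul W1 ls a2 ι
    obtain ⟨t, t0, ht⟩ := nrm cf rw X.pr b1 b2 lL ad ad' tr (la_ak cf ps μ)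
    have nr := cq_cob cf (y := (l : ℤ) • fun g => la cf n μ (D.zc s (L * l : ℕ) _ _ (up D g)))
      (y' := nq A B l • fun g => la cf n μ (D.zc s L _ _ (up D g))) fun g k => by
        simpa only [up_val k, Pi.smul_apply] using ht (up D g)
    simp only [cq_zsmul] at nr
    have co := cq_tw cf (y := fun g => lam (D.zc s (L * l : ℕ) _ _ (up D g)))
      (y₀ := fun g => la cf n μ (D.zc s (L * l : ℕ) (algebraMap (Zn n) _) (qc (toZModPow n) χ) (up D g)))
      (e := fun g => (c g).val) (fun b g => by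
        have k : ∀ b, c (cb D b) = 0 := fun b => by cases b; exacts [c1, cc]
        rw [ug, X.add, X.add, k, k, zero_add, add_zero]) fun g a k b => by
        rw [up_mul a b, (rw.co n s _ _ _ _ ad' t1).coc, map_add, hl, up_val a, add_assoc,
          du_zc _ _ X rw _ ad'.ne]
    obtain ⟨U, u1, u2, u3⟩ := cq_op cf rw ad' t1
    obtain ⟨U', v1, v2, v3⟩ := cq_op cf rw ad' tr'
    obtain ⟨u, k⟩ := un (P014U.Zr.nd_mul (u := l) (fun d => lp ((Nat.prime_dvd_prime_iff_eq pp_prime X.pr).1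
      (Int.natCast_dvd_natCast.1 d)).symm) F0)
    refine ⟨(l : ℤ) • cq D fun g => lam (D.zc s (L * l : ℕ) _ _ (up D g)), t + ga D.c t, io, x,
      θ / (s ^ 2 - s * e : ℤ), u, ⟨P004S.lc_of_open (u1.inter v1) ⟨u2, v2⟩ fun g u m => by
        rw [Pi.smul_apply, co, u3 u m.1, v3 u m.2, map_zero, zsmul_zero, add_zero, add_zero]; rfl, fun g => by
        rw [Pi.smul_apply, smul_comm, tor ((inlHom _ _).comp (algebraMap (Zn n) _)), zsmul_zero]⟩,
      by rw [nsmul_add, ← map_nsmul, t0, map_zero, add_zero], fun i m => by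
        rw [Pi.smul_apply, cq_in cf rw ad' t1 _ (hf L1 NL') (bad L1 fL' (Finset.subset_insert _ _)) m,
          zsmul_zero], fun g k => ?_, x1, ?_, P014U.Rx.rc_mono ?_ (Nat.zero_le m)⟩
    · rw [← nr, Pi.smul_apply, co, zsmul_add, zsmul_add, Pi.smul_apply, Pi.smul_apply, map_zsmul,
        map_zsmul, smul_comm (l : ℤ) ((c g).val : ℤ), natCast_zsmul _ (c g).val]
    · refine le_trans (le_of_eq ?_) (x2.trans (pow_le_pow_right₀ P014U.Rx.r1.le mm.1))
      rw [map_div₀, map_intCast, a1, map_sub, map_div₀, map_intCast]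
    · rw [k, mul_assoc, mul_div_cancel₀ _ sK, Int.cast_mul, mul_assoc]
      exact P014U.Rx.rc_zsmul o zn rc l

end Vale.Agent.P014X.Zr
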