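import Vale.Agent.P014X.Zr.Ud
import Vale.Agent.P014X.An.Kl3
import Vale.Agent.P014U.Zr.Gal

/-! # P014X, block Zr: the reciprocity law for the classes of the units (helper58) -/

set_option autoImplicit false
set_option linter.all false

open NumberField
open scoped Classical

noncomputable section

namespace Vale.Agent.P014X.Zr

open Vale.Agent.P022 (Qb GQ)
open Vale.Agent.P022D.W (dec)
open Vale.Agent.P014U Vale.Agent.P014U.Sy
open P004M.TE (Pt ga ga_mul ga_one)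
open Vale.Agent.P004F (hq)
open P027M.M (io)
open X4S.Ga (K O)
open X4S.Aq (O_of O_mul)
open X4F.Rc (mq hn mq_eq mq_zero hn_mul)
open Dr (Zn)
open P014T.Top (El)
open P014U.Top (Rc)
open P014T.Wm (Fx)
open P014T.Kc (Tr ta)
open P014T.Rc (zw)
open Lc (Lk)
open Ah (Ind am)
open Cd (Tv)

variable [Pp] {A B : ℤ} (D : Cd A B)

/-- the element of the subgroup -/
def up (g : GQ) : D.G := if h : g ∈ D.G then ⟨g, h⟩ else 1

/-- the cosets -/
abbrev Qx (H : Subgroup GQ) : Type := D.G ⧸ H.subgroupOf D.G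

/-- representatives over the rational numbers -/
def so (H : Subgroup GQ) (i : Bool × Qx D H) : GQ := cb D i.1 * i.2.out.1

/-- the action on them -/
def pa (H : Subgroup GQ) (g : GQ) (i : Bool × Qx D H) : Bool × Qx D H :=
  (xor (sg D g) i.1, up D (ug D i.1 g) • i.2)

variable {D} {H : Subgroup GQ} {g : GQ}

omit [Pp] in
theorem up_val (m : g ∈ D.G) : (up D g).1 = g := by rw [up, dif_pos m]

omit [Pp] in
theorem up_coe (g : D.G) : up D g = g := Subtype.ext (up_val g.2)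

omit [Pp] in
theorem out_mem (u : D.G) (x : Qx D H) : ((u • x).out.1)⁻¹ * u.1 * x.out.1 ∈ H := by
  have : (u • x).out⁻¹ * (u * x.out) ∈ H.subgroupOf D.G := QuotientGroup.eq.1 (by
    rw [QuotientGroup.out_eq', ← smul_eq_mul, MulAction.Quotient.mk_smul_out])
  rwa [← mul_assoc] at this

omit [Pp] in
theorem out_inj {x y : Qx D H} (e : x.out.1⁻¹ * y.out.1 ∈ H) : x = y := by
  rw [← x.out_eq', ← y.out_eq']
  exact QuotientGroup.eq.2 e

omit [Pp] in
theorem tv [Fintype (Qx D H)] : Tv D.G H (Finset.univ.image fun x : Qx D H => x.out.1) := by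
  refine ⟨fun s m => ?_, fun g m => ⟨(QuotientGroup.mk ⟨g, m⟩ : Qx D H).out.1,
    ⟨Finset.mem_image_of_mem _ (Finset.mem_univ _), ?_⟩, fun s ⟨a, e⟩ => ?_⟩⟩
  · obtain ⟨x, -, rfl⟩ := Finset.mem_image.1 m
    exact x.out.2
  · exact (QuotientGroup.eq (s := H.subgroupOf D.G) (b := ⟨g, m⟩)).1 (QuotientGroup.out_eq' _)
  · obtain ⟨x, -, rfl⟩ := Finset.mem_image.1 a
    rw [← (QuotientGroup.eq (a := x.out) (b := ⟨g, m⟩)).2 e, QuotientGroup.out_eq']

theorem ak_cast {n N : ℕ} (le : n ≤ N) {R : Type} [CommRing R] (j : Zn n →+* R) (χ : D.G →* R) :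
    D.ak (j.comp (ZMod.castHom (pow_dvd_pow pp le) (Zn n))) χ = D.ak j χ :=
  MonoidHom.ext fun g => congrArg (fun x => j x * χ g) (P014U.Zr.red_rz _ le _)

theorem lam_tor {n : ℕ} {R : Type} [CommRing R] (j : Zn n →+* R) (lam : R →+ Pt A B) (r : R) :
    pp ^ n • lam r = 0 := by
  rw [← map_nsmul, nsmul_eq_mul, ← map_natCast j, ZMod.natCast_self, map_zero, zero_mul, map_zero]

theorem nd_two : ¬ (pp : ℤ) ∣ 2 := fun e =>
  (Nat.le_of_dvd two_pos (Int.natCast_dvd_natCast.1 e)).not_gt two_lt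

variable (cf : D.Cf)
include cf

theorem act_tor (e : D.O) (n : ℕ) : pp ^ n • D.act e (D.tp (pp ^ n)) = 0 := by
  rw [← map_nsmul, ← Rx.act_pw, (cf.ker _ (Rx.pw_ne n) _).2 dvd_rfl, map_zero]

omit [Pp] in
theorem ta_eq (g : GQ) (i : Bool × Qx D H) : ta (so D H) (pa D H) g i =
    ((up D (ug D i.1 g) • i.2).out.1)⁻¹ * ug D i.1 g * i.2.out.1 := by
  simp only [ta, so, pa, mul_inv_rev, inv_eq_of_mul_eq_one_right (cb_cb cf _), ug, mul_assoc]

omit [Pp] in
theorem sg_so (i : Bool × Qx D H) : sg D (so D H i) = i.1 := by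
  rw [so, sg_mul cf, sg_cb cf, sg_f.2 i.2.out.2, Bool.xor_false]

omit [Pp] in
theorem tr (le : H ≤ D.G) : Tr ⊤ H (so D H) (pa D H) := by
  refine ⟨le_top, fun _ => trivial, fun g _ i => ?_, fun ⟨b, x⟩ ⟨b', y⟩ e => ?_⟩
  · have := out_mem (up D (ug D i.1 g)) i.2
    rwa [up_val (ug_mem cf _ _), ← ta_eq cf] at this
  · have := sg_mul cf (so D H (b, x)) ((so D H (b, x))⁻¹ * so D H (b', y))
    rw [mul_inv_cancel_left, sg_so cf, sg_so cf, sg_f.2 (le e), Bool.xor_false] at this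
    obtain rfl : b' = b := this
    rw [so, so, mul_inv_rev, mul_assoc, inv_mul_cancel_left] at e
    exact congrArg _ (out_inj e)

/-- **the law for the class with weight `w`** -/
theorem core (h : El A B) (eu : D.Eu) (rw : D.Rw) {ι : Qb →+* ℂ_[pp]} {P : Ideal (𝓞 Qb)}
    (hι : Ind ι P) {lg : Fx A B (dec P) →+ K} (lk : Lk ι lg) {a M n : ℕ} (ad : D.Ad pp a M)
    (hf : D.Hm M = D.Hf M) (d2 : 2 ∣ M) (dn : pp ^ n ∣ M) {R : Type} [CommRing R] {j : Zn n →+* R}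
    {χ : D.G →* R} (tχ : D.Tr M χ) {lam : R →+ Pt A B} {μ₀ : D.O} {w : GQ → ℤ} {Γ : Subgroup GQ}
    (dΓ : dec P ≤ Γ) (cΓ : D.c ∈ Γ)
    (hΓ : ∀ g : D.G, g.1 ∈ Γ → ∀ r, lam (D.ak j χ g * r) = ga g.1 (lam r))
    (hw : ∀ (g : D.G) k, lam (D.ak j χ g * j k) = w g • ga g.1 (k.val • D.act μ₀ (D.tp (pp ^ n))))
    (wi : ∀ g ∈ Γ, ∀ x, ∀ k ∈ D.Hf M, w (g * x * k) = w x) {γ : D.O} (g0 : γ ≠ 0)
    (hu : ∀ (N : ℕ) (F : ℤ), 0 < N → Ki.wp (hq h) N (D.act γ (D.tp (pp ^ N))) (D.act μ₀ (D.tp (pp ^ N))) -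
      hn N * F ∈ O → ¬ (pp : ℤ) ∣ F) {V v : ℂ}
    (hV : ∀ T, Tv D.G (D.Hf M) T →
      (∑ g ∈ T, w g * io (An.dT D a (ga g (D.tp M)))) * v = 2 * M * D.J γ * V ∧
      (∑ g ∈ T, w g * io (An.dT D a (ga (D.c * g) (D.tp M)))) * v = 2 * M * D.J (star γ) * V) :
    ∃ (F : ℤ) (θ : K) (b : Qb), ¬ (pp : ℤ) ∣ F ∧ am θ = ι b ∧ io b * v = V ∧
      Cp.Zn (dec P) n (cq D fun g => lam (D.zc a M j χ (up D g))) ∧
      Rc h P lg 0 n (cq D fun g => lam (D.zc a M j χ (up D g))) (F * θ) := by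
  have o := hι.ov
  have M0 : M ≠ 0 := fun e => ad.ne (by rw [e, Nat.cast_zero])
  obtain ⟨N, L, hL, e⟩ := Nat.exists_eq_pow_mul_and_not_dvd M0 pp pp_prime.ne_one
  rw [mul_comm] at e
  subst e
  have cp := (pp_prime.coprime_iff_not_dvd.2 hL)
  have le : n ≤ N := (Nat.pow_dvd_pow_iff_le_right pp_prime.one_lt).1
    ((cp.pow_left n).dvd_of_dvd_mul_left dn)
  have pM : pp ∣ L * pp ^ N := by
    obtain ⟨x, e⟩ := (dvd_pow_self (pp : D.O) two_ne_zero).trans ad.dv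
    have := congrArg QuadraticAlgebra.re e
    rw [← nsmul_eq_mul, QuadraticAlgebra.re_smul, nsmul_eq_mul, QuadraticAlgebra.re_natCast] at this
    exact Int.natCast_dvd_natCast.1 ⟨_, this⟩
  have N0 : 0 < N := Nat.pos_of_ne_zero fun e => hL (by simpa [e] using pM)
  have dL : 2 ∣ L := ((Nat.coprime_primes Nat.prime_two pp_prime).2
    pp_ne_two.symm).pow_right N |>.dvd_of_dvd_mul_right d2
  have c6 : a.Coprime (6 * (L * pp ^ N)) := by
    have := Cf0.dom D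
    refine Nat.coprime_of_dvd fun q hq k1 k2 => ?_
    obtain ⟨x, e⟩ := (ad.cop.isUnit_of_dvd' (Nat.cast_dvd_cast k1)
      (by exact_mod_cast Nat.cast_dvd_cast (α := D.O) k2)).exists_right_inv
    have := congrArg QuadraticAlgebra.re e
    rw [← nsmul_eq_mul, QuadraticAlgebra.re_smul, nsmul_eq_mul, QuadraticAlgebra.re_one] at this
    exact hq.one_lt.ne' (Nat.dvd_one.1 (Int.natCast_dvd_natCast.1 ⟨_, this.symm⟩))
  have pa' : ¬ pp ∣ a := fun k => pp_prime.one_lt.ne'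
    (Nat.eq_one_of_dvd_coprimes c6 k (pM.mul_left _))
  have a6 := c6.coprime_mul_right_right
  obtain ⟨k, θ⟩ := Rx.th_of cf eu a6 pa'
  obtain ⟨c, rfl⟩ := Nat.exists_eq_add_of_le le
  have t1 := act_tor cf μ₀ (n + c)
  have t0 := act_tor cf μ₀ n
  rw [← cf.dv _ (Rx.pw_ne n) _ (Rx.pw_ne c), ← pow_add, Rx.act_pw, map_nsmul] at hw t0
  generalize ht : D.act μ₀ (D.tp (pp ^ (n + c))) = t' at hw t0 t1
  have S0 : (pp * (6 * (4 * A ^ 3 + 27 * B ^ 2) * (D.b ^ 2 + 4 * D.a))).natAbs ≠ 0 :=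
    Int.natAbs_ne_zero.2 (mul_ne_zero (Nat.cast_ne_zero.2 pp_ne)
      (mul_ne_zero (mul_ne_zero (by decide) h) D.neg.ne))
  obtain ⟨ρ, T, f, f0, s, lt, u⟩ := ex_ud cf h
    (pS := Nat.mem_primeFactors.2 ⟨pp_prime, Int.natCast_dvd.1 (dvd_mul_right _ _), S0⟩)
    (hS := fun l p k => Nat.mem_primeFactors.2 ⟨p, Int.natCast_dvd.1
      ((k.elim (·.mul_right _) (·.mul_left _)).mul_left _), S0⟩)
    θ N0 hL dL ad.cop.of_mul_right_right t1 g0
  generalize hC : Rx.cm cf _ _ _ = C at u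
  obtain ⟨b, hb⟩ := ex_b C f
  set M := L * pp ^ (n + c) with hM
  have : (D.Hf M).FiniteIndex := ⟨P004S.idx_ne u.op⟩
  have := Fintype.ofFinite (Qx D (D.Hf M))
  have r := tr cf (H := D.Hf M) inf_le_left
  have uΓ : ∀ g ∈ dec P, ∀ b, ug D b g ∈ Γ := fun g m b => by
    have k : ∀ b, cb D b ∈ Γ := fun b => by cases b; exacts [one_mem _, cΓ]
    exact mul_mem (mul_mem (k _) (dΓ m)) (k _)
  have wp : ∀ g ∈ dec P, ∀ i, w (pa D (D.Hf M) g i).2.out.1 = w i.2.out.1 := fun g m i => by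
    have := out_mem (up D (ug D i.1 g)) i.2
    rw [up_val (ug_mem cf _ _)] at this
    rw [← wi _ (uΓ g m i.1) i.2.out.1 _ (inv_mem this)]
    simp only [pa, mul_inv_rev, inv_inv, mul_assoc, mul_inv_cancel_left, inv_mul_cancel_left]
  obtain ⟨zn, μ, e1, rc⟩ := Rx.recx A B h _ _ C
    (Nat.mem_primeFactors.2 ⟨pp_prime, Int.natCast_dvd.1 (dvd_mul_right _ _), S0⟩)
    (fun _ => Nat.prime_of_mem_primeFactors) a _ _ _ θ pa'
    (Nat.coprime_two_right.1 (a6.coprime_dvd_right (by decide))) _ _ _ _ _ _ _ _ u b hb ι P hι lg lk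
    _ _ _ (fun i => w i.2.out.1) r wp
  obtain ⟨x, hx⟩ := rw.lev _ n le a M R j χ ad tχ
  have eq : ∀ g ∈ dec P, (cq D fun g => lam (D.zc a M j χ (up D g))) g =
      (pp ^ c • zw (so D (D.Hf M)) (pa D (D.Hf M)) (fun i => w i.2.out.1)
        fun g => (kum (n + c) (D.un a M) g).val • t') g +
      (ga g (-lam x + ga D.c (-lam x)) - (-lam x + ga D.c (-lam x))) := fun g m => by
    rw [cq_cob' cf (y' := fun g => lam (D.zc a M (j.comp (ZMod.castHom (pow_dvd_pow pp le) _)) χ (up D g)))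
      (t := -lam x) fun b => by
        have := congrArg lam (hx (up D (ug D b g)))
        rw [sub_mul, one_mul, map_sub, map_sub, hΓ _ (by rw [up_val (ug_mem cf _ _)]; exact uΓ g m b),
          up_val (ug_mem cf _ _)] at this
        rw [map_neg]
        linear_combination (norm := abel) -this]
    congr 1
    rw [Pi.smul_apply, zw, Fintype.sum_prod_type, Finset.smul_sum]
    refine Finset.sum_congr rfl fun b _ => ?_
    beta_reduce
    rw [Cd.zc, Cd.cor, hf, finsum_eq_sum_of_fintype, map_sum, map_sum, Finset.smul_sum,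
      ← Equiv.sum_comp (MulAction.toPerm (up D (ug D b g)))]
    refine Finset.sum_congr rfl fun y _ => ?_
    rw [ak_cast le, RingHom.comp_apply, hw, ← wp g m (b, y), ta_eq cf, ZMod.castHom_apply, ZMod.cast_eq_val,
      ZMod.val_natCast, ← nsmul_eq_mod_nsmul _ t0, MulAction.toPerm_apply, inv_smul_smul, map_zsmul,
      ← ga_mul, smul_comm (pp ^ c), ← map_nsmul, smul_comm (pp ^ c), Subgroup.coe_mul, Subgroup.coe_mul,
      up_val (ug_mem cf _ _)]
    rfl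
  have zn2 := P014U.Zr.zn_cob (P014U.Rx.Zn.down zn) (by
    rw [nsmul_add, ← map_nsmul, neg_nsmul, lam_tor j, neg_zero, map_zero, add_zero]) eq
  have r3 := P014U.Rx.rc_km o (P014U.Rx.Zn.down zn) (P014U.Rx.rc_down o zn rc) zn2 fun g m =>
    sub_eq_of_eq_add' (eq g m)
  generalize hY : ∑ i, (w (i : Bool × Qx D (D.Hf M)).2.out.1 : Qb) * _ * _ = Y at e1
  have L0 : L ≠ 0 := fun e => hL (e ▸ dvd_zero _)
  have n0 {F : Type} [Field F] [CharZero F] : (2 * L * f γ : F) ≠ 0 :=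
    mul_ne_zero (mul_ne_zero two_ne_zero (Nat.cast_ne_zero.2 L0)) (Int.cast_ne_zero.2 f0)
  have p0 {F : Type} [Field F] [CharZero F] : (pp ^ (n + c) : F) ≠ 0 :=
    pow_ne_zero _ (Nat.cast_ne_zero.2 pp_ne)
  refine ⟨2 * (L * f γ), μ / (2 * L * f γ), Y / (2 * L * f γ) / pp ^ (n + c),
    P014U.Zr.nd_mul nd_two (hu _ _ N0 ?_), ?_, ?_, zn2, ?_⟩
  · rw [ht, ← lt, ← Rx.act_nat (D := D), ← act_mul, ← nsmul_eq_mul, ← map_nsmul f, nsmul_eq_mul, mul_comm γ]
    exact (hC ▸ u.pr (L * γ) :)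
  · simp only [map_div₀, map_mul, map_pow, map_natCast, map_intCast, map_ofNat, ← e1]
    rw [mul_div_right_comm, mul_div_cancel_right₀ _ p0]
  · obtain ⟨v1, v2⟩ := hV _ tv
    rw [Finset.sum_image fun x _ y _ e => out_inj (by rw [e, inv_mul_cancel]; exact one_mem _)] at v1 v2
    have fγ := congrArg io (hb γ)
    have ep : ∀ i, C.ep (so D (D.Hf M) i) = i.1 := hC ▸ sg_so cf
    replace fγ : io (f γ) = io (b false * D.j γ + b true * D.j (star γ)) := by
      subst hC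
      exact fγ
    simp only [map_div₀, map_mul, map_pow, map_natCast, map_intCast, map_ofNat, map_add] at fγ ⊢
    rw [div_div, div_mul_eq_mul_div, div_eq_iff (mul_ne_zero n0 p0), ← hY, Fintype.sum_prod_type,
      Fintype.sum_bool]
    simp only [ep, s, An.dl_eq, map_add, map_sum, map_mul, map_intCast]
    simp only [so, cb, if_true, Bool.false_eq_true, if_false, one_mul, mul_right_comm _ (io (b _)),
      ← Finset.sum_mul]
    change _ = _ * D.J γ + _ * D.J (star γ) at fγ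
    rw [show (M : ℂ) = L * pp ^ (n + c) by rw [hM, Nat.cast_mul, Nat.cast_pow]] at v1 v2
    linear_combination io (b false) * v1 + io (b true) * v2 - 2 * L * pp ^ (n + c) * V * fγ
  · rwa [Int.cast_mul, Int.cast_mul, Int.cast_natCast, ← mul_assoc, Int.cast_ofNat, mul_div_cancel₀ _ n0]

end Vale.Agent.P014X.Zr
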