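import Vale.Agent.P014X.St1
import Vale.Agent.P014X.Rx.Br

/-! # P014X, block Zr: the corestriction from the quadratic field on points (helper58) -/

set_option autoImplicit false
set_option linter.all false

open scoped Classical

noncomputable section

namespace Vale.Agent.P014X.Zr

open Vale.Agent.P022 (Qb GQ)
open P004M.TE (Pt ga ga_mul ga_one)

variable {A B : ℤ} (D : Cd A B)

/-- the representatives -/
def cb (b : Bool) : GQ := if b then D.c else 1

/-- the sign -/
def sg (g : GQ) : Bool := decide (g ∉ D.G)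

/-- the components -/
def ug (b : Bool) (g : GQ) : GQ := cb D (xor (sg D g) b) * g * cb D b

/-- the corestriction -/
def cq (y : GQ → Pt A B) (g : GQ) : Pt A B := ∑ b, ga (cb D (xor (sg D g) b)) (y (ug D b g))

variable {D} {y y' y₀ : GQ → Pt A B} {g k : GQ} {t : Pt A B}

theorem sg_f : sg D g = false ↔ g ∈ D.G := by simp [sg]

theorem cq_zsmul (n : ℤ) (y : GQ → Pt A B) (g : GQ) : cq D (n • y) g = n • cq D y g := by
  simp only [cq, Pi.smul_apply, map_zsmul, Finset.smul_sum]

theorem cq_tor {n : ℕ} (h : ∀ g, n • y g = 0) (g : GQ) : n • cq D y g = 0 := by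
  simp only [cq, Finset.smul_sum, ← map_nsmul, h, map_zero, Finset.sum_const_zero]

theorem cq_G (m : g ∈ D.G) : cq D y g = y g + ga D.c (y (D.c * g * D.c)) := by
  simp [cq, ug, cb, sg_f.2 m, ga_one, add_comm]

theorem sum_xor {M : Type} [AddCommMonoid M] (s : Bool) (f : Bool → M) :
    ∑ b, f (xor s b) = ∑ b, f b := by cases s <;> simp [add_comm]

variable (cf : D.Cf)
include cf

theorem c_not : D.c ∉ D.G := (cf.cG _).2 (cf.c2 ▸ one_mem _)

theorem c_inv : D.c⁻¹ = D.c := inv_eq_of_mul_eq_one_right cf.c2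

theorem cb_cb (b : Bool) : cb D b * cb D b = 1 := by cases b <;> simp [cb, cf.c2]

theorem sg_mul (g k : GQ) : sg D (g * k) = xor (sg D g) (sg D k) := by
  by_cases a : g ∈ D.G <;> by_cases b : k ∈ D.G
  · simp [sg, a, b, mul_mem a b]
  · simp [sg, a, b, D.G.mul_mem_cancel_left a]
  · simp [sg, a, b, D.G.mul_mem_cancel_right b]
  · have := mul_mem ((cf.cG g).1 a) (inv_mem ((cf.cG k⁻¹).1 fun e => b (inv_mem_iff.1 e)))
    rw [mul_inv_rev, inv_inv, mul_assoc, mul_inv_cancel_left] at this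
    simp [sg, a, b, this]

theorem sg_cb (b : Bool) : sg D (cb D b) = b := by
  cases b <;> simp [sg, cb, c_not cf]

theorem ug_mem (b : Bool) (g : GQ) : ug D b g ∈ D.G := sg_f.1 (by
  rw [ug, sg_mul cf, sg_mul cf, sg_cb cf, sg_cb cf]
  cases sg D g <;> cases b <;> rfl)

theorem cj_mem (m : g ∈ D.G) : D.c * g * D.c ∈ D.G := by
  simpa [ug, cb, sg_f.2 m] using ug_mem cf true g

theorem cb_ug (b : Bool) (g : GQ) : cb D (xor (sg D g) b) * ug D b g = g * cb D b := by
  rw [ug, mul_assoc, ← mul_assoc, cb_cb cf, one_mul]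

theorem ug_mul (b : Bool) (g k : GQ) : ug D b (g * k) = ug D (xor (sg D k) b) g * ug D b k := by
  rw [ug, sg_mul cf, Bool.xor_assoc, ug, mul_assoc _ (cb D _) (ug D b k), cb_ug cf]
  simp only [mul_assoc]

theorem cq_congr (h : ∀ g ∈ D.G, y g = y' g) (g : GQ) : cq D y g = cq D y' g :=
  Finset.sum_congr rfl fun b _ => by rw [h _ (ug_mem cf b g)]

/-- twisted cocycles -/
theorem cq_tw {e : GQ → ℤ} (he : ∀ b g, e (ug D b g) = e g)
    (h : ∀ g ∈ D.G, ∀ k ∈ D.G, y (g * k) = y g + ga g (y k) + e g • ga g (y₀ k)) (g k : GQ) :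
    cq D y (g * k) = cq D y g + ga g (cq D y k) + e g • ga g (cq D y₀ k) := by
  rw [cq, cq, ← sum_xor (sg D k) fun b => ga (cb D (xor (sg D g) b)) (y (ug D b g)), cq, cq, map_sum,
    map_sum, Finset.smul_sum, ← Finset.sum_add_distrib, ← Finset.sum_add_distrib]
  refine Finset.sum_congr rfl fun b _ => ?_
  rw [ug_mul cf, h _ (ug_mem cf _ _) _ (ug_mem cf _ _), sg_mul cf, Bool.xor_assoc, map_add, map_add,
    map_zsmul, he]
  simp only [← ga_mul, cb_ug cf]

/-- coboundaries -/
theorem cq_cob' (h : ∀ b, y (ug D b g) = y' (ug D b g) + (ga (ug D b g) t - t)) :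
    cq D y g = cq D y' g + (ga g (t + ga D.c t) - (t + ga D.c t)) := by
  have e : t + ga D.c t = ∑ b, ga (cb D b) t := by simp [cb, ga_one, add_comm]
  rw [e, map_sum, ← sum_xor (sg D g) fun b => ga (cb D b) t, cq, cq, ← Finset.sum_sub_distrib,
    ← Finset.sum_add_distrib]
  refine Finset.sum_congr rfl fun b _ => ?_
  rw [h, map_add, map_sub]
  simp only [← ga_mul, cb_ug cf]

theorem cq_cob (h : ∀ g ∈ D.G, y g = y' g + (ga g t - t)) (g : GQ) :
    cq D y g = cq D y' g + (ga g (t + ga D.c t) - (t + ga D.c t)) :=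
  cq_cob' cf fun _ => h _ (ug_mem cf _ _)

/-- corestriction after restriction -/
theorem cq_res (h : ∀ g k, y (g * k) = y g + ga g (y k)) (g : GQ) :
    cq D y g = 2 • y g + (ga g (y D.c) - y D.c) := by
  have o : y 1 = 0 := by simpa [ga_one] using h 1 1
  have c := h D.c D.c
  rw [cf.c2, o] at c
  have k : ∀ b, ga (cb D (xor (sg D g) b)) (y (ug D b g)) =
      y g + ga g (y (cb D b)) - y (cb D (xor (sg D g) b)) := fun b => by
    rw [eq_sub_iff_add_eq', ← h, ← h, cb_ug cf]
  rw [cq, Finset.sum_congr rfl fun b _ => k b, Finset.sum_sub_distrib,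
    sum_xor (sg D g) fun b => y (cb D b)]
  simp [cb, o, two_nsmul]
  abel

end Vale.Agent.P014X.Zr
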