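import Vale.Agent.P014X.Zr.Cq
import Vale.Agent.P014X.Cm.Cf0

/-! # P014X, block Zr: the class of the unit at the exact level (helper58) -/

set_option autoImplicit false
set_option linter.all false

open scoped Classical

noncomputable section

namespace Vale.Agent.P014X.Zr

open Vale.Agent.P022 (Qb GQ)
open Vale.Agent.P014U Vale.Agent.P014U.Sy
open P004M.TE (Pt ga ga_mul ga_one)
open Vale.Agent.P004F (hq)
open X4S.Ga (K O)
open X4S.Aq (O_of O_mul)
open X4F.Rc (mq hn mq_eq mq_zero hn_mul)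
open Dr (Zn)
open P014T.Top (El)
open QuadraticAlgebra (omega)

variable [Pp] {A B : ℤ} {D : Cd A B} {N : ℕ}

theorem rt_spec (N : ℕ) (u : Qb) : rt N u ^ pp ^ N = u :=
  Classical.epsilon_spec (IsAlgClosed.exists_pow_nat_eq u (pow_pos pp_prime.pos N))

theorem kum_spec {u : Qb} (u0 : u ≠ 0) {g : GQ} (h : g u = u) :
    g (rt N u) = ex (hn N) ^ (kum N u g).val * rt N u := by
  have r := rt_spec N u
  have r0 : rt N u ≠ 0 := fun e => u0 (by rw [← r, e, zero_pow (pow_pos pp_prime.pos N).ne'])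
  obtain ⟨m, e⟩ := ex_onto (η := g (rt N u) / rt N u) (n := N)
    (by rw [div_pow, ← map_pow, r, h, div_self u0])
  refine Classical.epsilon_spec (p := fun k : Zn N => g (rt N u) = ex (hn N) ^ k.val * rt N u)
    ⟨m, ?_⟩
  rw [ZMod.val_natCast, ← pow_eq_pow_mod m (ex_prim' N).pow_eq_one, ← ex_nat, mul_comm (m : K), ← e,
    div_mul_cancel₀ _ r0]

theorem act_int (k : ℤ) (T : Pt A B) : D.act k T = k • T := by rw [map_intCast]; rfl

theorem act_mul (x y : D.O) (T : Pt A B) : D.act (x * y) T = D.act x (D.act y T) := by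
  rw [map_mul]; rfl

theorem sp (e : D.O) : e = e.re + e.im * (omega : D.O) := by ext <;> simp

/-- the pairing with `t` as a functional -/
theorem ex_f (h : El A B) {T t : Pt A B} (T0 : pp ^ N • T = 0) (t0 : pp ^ N • t = 0) {γ : D.O}
    (g0 : γ ≠ 0) : ∃ f : D.O →+ ℤ, f γ ≠ 0 ∧ ∀ e, Ki.wp (hq h) N (D.act e T) t - hn N * f e ∈ O := by
  have tr : ∀ e, pp ^ N • D.act e T = 0 := fun e => by rw [← map_nsmul, T0, map_zero]
  let φ : D.O →+ K ⧸ O := .mk' (fun e => mq (Ki.wp (hq h) N (D.act e T) t)) fun a b => by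
    rw [map_add]; exact (Ki.pr (hq h)).addl (tr a) (tr b) t0
  obtain ⟨f1, e1⟩ := lev_apx (Ki.wp_lev (hq h) N (D.act 1 T) t)
  obtain ⟨f2, e2⟩ := lev_apx (Ki.wp_lev (hq h) N (D.act omega T) t)
  have k : ∀ u v : ℤ, ∃ f : D.O →+ ℤ, (∀ e, f e = e.re * (f1 + pp ^ N * u) + e.im * (f2 + pp ^ N * v)) ∧
      ∀ e, Ki.wp (hq h) N (D.act e T) t - hn N * f e ∈ O := fun u v => by
    refine ⟨.mk' (fun e => e.re * (f1 + pp ^ N * u) + e.im * (f2 + pp ^ N * v)) fun a b => by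
      simp only [QuadraticAlgebra.re_add, QuadraticAlgebra.im_add]; ring, fun _ => rfl, fun e => ?_⟩
    have : φ e = e.re • φ 1 + e.im • φ omega := by
      rw [← map_zsmul, ← map_zsmul, ← map_add, zsmul_one, zsmul_eq_mul, ← sp]
    rw [show φ 1 = _ from mq_eq.2 e1, show φ omega = _ from mq_eq.2 e2, ← map_zsmul, ← map_zsmul,
      ← map_add] at this
    refine O_of (sub_mem (mq_eq.1 this) (intCast_mem (PadicInt.subring pp) (e.re * u + e.im * v))) ?_
    simp only [AddMonoidHom.mk'_apply, zsmul_eq_mul]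
    push_cast
    linear_combination (-(e.re * u + e.im * v) : K) * hn_mul N
  obtain ⟨f, e, a⟩ := k 0 0
  by_cases z : f γ = 0
  · obtain ⟨f', e', a'⟩ := k γ.re γ.im
    refine ⟨f', fun z' => g0 ?_, a'⟩
    have : (pp : ℤ) ^ N * (γ.re ^ 2 + γ.im ^ 2) = 0 := by
      linear_combination z' - z - e' γ + e γ
    have := (mul_eq_zero.1 this).resolve_left (pow_ne_zero _ (Nat.cast_ne_zero.2 pp_ne))
    ext
    · exact pow_eq_zero_iff two_ne_zero |>.1 (by nlinarith [sq_nonneg γ.re, sq_nonneg γ.im])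
    · exact pow_eq_zero_iff two_ne_zero |>.1 (by nlinarith [sq_nonneg γ.re, sq_nonneg γ.im])
  · exact ⟨f, z, a⟩

variable {S : Finset ℕ} {R : Type} [CommRing R]

/-- a functional in terms of the two embeddings -/
theorem ex_b (C : Rx.Cm A B S R) (f : R →+ ℤ) : ∃ b : Bool → Qb,
    ∀ e, (f e : Qb) = b false * C.em e false + b true * C.em e true := by
  have n : C.em C.ω false - C.em C.ω true ≠ 0 := sub_ne_zero.2 fun e =>
    C.ne (C.inj (Subtype.ext e)).symm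
  refine ⟨fun x => (if x then f 1 * C.em C.ω false - f C.ω else f C.ω - f 1 * C.em C.ω true) /
    (C.em C.ω false - C.em C.ω true), fun e => ?_⟩
  obtain ⟨u, v, rfl⟩ := C.bas e
  have k : ∀ x, C.em (u + v * C.ω) x = u + v * C.em C.ω x := fun x => by simp [Rx.Cm.em]
  rw [k, k, map_add, ← zsmul_eq_mul, map_zsmul, ← zsmul_one u, map_zsmul]
  simp only [smul_eq_mul, mul_one, Bool.false_eq_true, if_true, if_false]
  push_cast
  field_simp
  ring

variable (cf : D.Cf)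
include cf

theorem not_dvd {a L : ℕ} (c : IsCoprime (a : D.O) L) (d : 2 ∣ L) : ¬ (L : D.O) ∣ a := fun k => by
  obtain ⟨x, e⟩ := (c.isUnit_of_dvd' k dvd_rfl).exists_right_inv
  obtain ⟨m, rfl⟩ := d
  have := congrArg QuadraticAlgebra.re e
  rw [← nsmul_eq_mul, QuadraticAlgebra.re_smul, nsmul_eq_mul] at this
  simp only [Nat.cast_mul, QuadraticAlgebra.re_one] at this
  have : (2 : ℤ) ∣ 1 := ⟨m * x.re, by rw [← this]; push_cast; ring⟩
  omega

/-- **the datum of the reciprocity law** -/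
theorem ex_ud (h : El A B) {pS : pp ∈ S} {hS} {a L : ℕ} {Z k} (θ : Rx.Th a (D.th a) Z k)
    (N0 : 0 < N) (hL : ¬ pp ∣ L) (d : 2 ∣ L) (c : IsCoprime (a : D.O) (L * pp ^ N : ℕ))
    {t : Pt A B} (t0 : pp ^ N • t = 0) {γ : D.O} (g0 : γ ≠ 0) : ∃ ρ T f, f γ ≠ 0 ∧
      ρ + T = D.tp (L * pp ^ N : ℕ) ∧ L • T = D.tp (pp ^ N) ∧
      Rx.Ud h (Rx.cm cf S pS hS) a N (D.th a) (D.Hf (L * pp ^ N : ℕ)) ρ T t
        (rt N (D.un a (L * pp ^ N : ℕ))) f fun g => (kum N (D.un a (L * pp ^ N : ℕ)) g).val • t := by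
  have L0 : L ≠ 0 := fun e => hL (e ▸ dvd_zero _)
  have m0 : ((L * pp ^ N : ℕ) : D.O) ≠ 0 := Rx.nat_ne D (mul_ne_zero L0 (pow_ne_zero _ pp_ne))
  obtain ⟨u, v, e⟩ : IsCoprime (L : ℤ) (pp ^ N) := by
    simpa using Nat.Coprime.cast (R := ℤ) ((pp_prime.coprime_iff_not_dvd.2 hL).symm.pow_right N)
  have e' : (u * L + v * pp ^ N : D.O) = 1 := by exact_mod_cast congrArg (Int.cast : ℤ → D.O) e
  have g := Rx.gen_tp cf (pS := pS) (hS := hS) N
  set Q := D.tp (L * pp ^ N : ℕ) with hQ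
  have q : L • Q = D.tp (pp ^ N) := by
    rw [← Rx.act_nat, hQ, mul_comm L, Nat.cast_mul, Nat.cast_pow, cf.dv _ (Rx.pw_ne N) _ (Rx.nat_ne D L0)]
  have q0 : pp ^ N • L • Q = 0 := q ▸ g.tor
  have lt : L • u • L • Q = D.tp (pp ^ N) := by
    rw [q, ← natCast_zsmul, ← mul_zsmul, mul_comm, eq_sub_of_add_eq e, sub_zsmul, one_zsmul, mul_zsmul,
      ← Nat.cast_pow (α := ℤ), natCast_zsmul, g.tor, zsmul_zero, neg_zero, add_zero]
  have t1 : pp ^ N • u • L • Q = 0 := by rw [smul_comm, q0, zsmul_zero]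
  have s : v • pp ^ N • Q + u • L • Q = Q := by
    rw [← natCast_zsmul, ← natCast_zsmul Q, ← mul_zsmul, ← mul_zsmul, ← add_zsmul, Nat.cast_pow,
      add_comm, e, one_zsmul]
  have nz : a • Q ≠ 0 := fun z => not_dvd cf c (d.mul_right _)
    ((cf.ker _ m0 _).1 ((Rx.act_nat a Q).trans z))
  obtain ⟨f, f0, pr⟩ := ex_f (D := D) h t1 t0 g0
  refine ⟨v • pp ^ N • Q, u • L • Q, f, f0, s, lt, N0, ⟨t1, fun U x => ?_, fun x z => ?_⟩,
    ⟨L, hL, ?_⟩, fun z => ?_, cf.oH _ m0, inf_le_left, fun g m => ?_, t0, pr, ?_, fun g m => ?_⟩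
  · obtain ⟨y, rfl⟩ := g.sp U x
    exact ⟨y * L, (act_mul _ _ _).trans (by rw [Rx.act_nat, lt]; rfl)⟩
  · have : (pp : D.O) ^ N ∣ x * u := g.fr _ ((act_mul _ _ _).trans (by rw [act_int, ← q]; exact z))
    rw [← mul_one x, ← e', mul_add, ← mul_assoc, ← mul_assoc]
    exact dvd_add (this.mul_right _) (dvd_mul_left _ _)
  · rw [smul_comm, smul_comm L, q0, zsmul_zero]
  · rw [← Rx.act_pw, ← act_int (D := D), ← Rx.act_nat (D := D), ← act_mul, ← act_mul, cf.ker _ m0,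
      Nat.cast_mul, Nat.cast_pow] at z
    have := Cf0.dom D
    refine not_dvd cf (c.of_isCoprime_of_dvd_right (Nat.cast_dvd_cast (dvd_mul_right L _))) d ?_
    rw [← mul_one (a : D.O), ← e', mul_add, ← mul_assoc, ← mul_assoc]
    exact dvd_add (dvd_mul_left _ _) (((mul_dvd_mul_iff_right (Rx.pw_ne N)).1 z).mul_right _)
  · simp only [map_zsmul, map_nsmul, show ga g Q = Q from m.2, and_self]
  · rw [s, rt_spec]; rfl
  · refine ⟨(kum N (D.un a (L * pp ^ N : ℕ)) g).val, ?_, (natCast_zsmul _ _).symm⟩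
    rw [Int.cast_natCast, mul_comm (hn N), ex_nat]
    exact kum_spec (θ.nz nz) ((θ.gal g Q nz).trans (congrArg _ m.2))

end Vale.Agent.P014X.Zr
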