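import Vale.Agent.P014X.Zr.Core
import Vale.Agent.P014X.Zr.Num

/-! # P014X, block Zr: the pairing of the two periods is a unit (helper58) -/

set_option autoImplicit false
set_option linter.all false

open scoped Classical ComplexConjugate

noncomputable section

namespace Vale.Agent.P014X.Zr

open Vale.Agent.P014U
open P004M.TE (Pt ga)
open Vale.Agent.P004F (hq)
open X4S.Ga (K O)
open X4S.Aq (O_of O_mul)
open X4F.Rc (mq hn mq_eq mq_zero hn_mul)
open P014T.Top (El)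
open Cf0 (JH JH_eq J_star)
open QuadraticAlgebra (omega)

variable {A B : ℤ} {D : Cd A B} (cf : D.Cf) {γ μ : D.O}
  (hγ : ∀ x : D.O, (D.Ω * D.J x).im = 0 → ∃ n : ℤ, x = n * γ)
include cf hγ

theorem plus {x : D.O} (h : star x * D.η = x) : ∃ n : ℤ, x = n * γ := hγ x (Complex.conj_eq_iff_im.1 (by
  rw [map_mul, D.eta, ← J_star, mul_comm _ D.Ω, mul_assoc]
  conv_rhs => rw [← h, ← JH_eq, map_mul, mul_comm (JH D _)]
  rfl))

theorem dec_e [Pp] (m : star μ * D.η = -μ) (d : ¬ (pp : D.O) ∣ μ) (e : D.O) :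
    ∃ k i j : ℤ, ¬ (pp : ℤ) ∣ k ∧ k * e = i * γ + j * μ := by
  have := Cf0.dom D
  have u := Rx.unit_star D cf.eu
  have s : star (dl D.a D.b ℤ) = -dl D.a D.b ℤ := by ext <;> simp [dl]; ring
  have δ0 : dl D.a D.b ℤ ≠ 0 := fun e => by simpa [dl] using congrArg QuadraticAlgebra.im e
  obtain ⟨i, e1⟩ := plus cf hγ (x := e + star e * D.η) (by
    rw [star_add, star_mul, star_star]; linear_combination e * u)
  obtain ⟨a, e2⟩ := plus cf hγ (x := dl D.a D.b ℤ * μ) (by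
    rw [star_mul, s]; linear_combination -dl D.a D.b ℤ * m)
  obtain ⟨b, e3⟩ := plus cf hγ (x := dl D.a D.b ℤ * (e - star e * D.η)) (by
    rw [star_mul, s, star_sub, star_mul, star_star]; linear_combination dl D.a D.b ℤ * e * u)
  have a0 : a ≠ 0 := fun z => d (by
    rw [z, Int.cast_zero, zero_mul] at e2
    rw [(mul_eq_zero.1 e2).resolve_left δ0]
    exact dvd_zero _)
  obtain ⟨g, a', b', g0, c, rfl, rfl⟩ := Int.exists_gcd_one' (Int.gcd_pos_of_ne_zero_left b a0)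
  obtain ⟨x, y, c⟩ := Int.isCoprime_iff_gcd_eq_one.2 c
  have c' : (x * a' + y * b' : D.O) = 1 := by exact_mod_cast congrArg (Int.cast : ℤ → D.O) c
  have k : (a' : D.O) * (e - star e * D.η) = b' * μ :=
    mul_left_cancel₀ (mul_ne_zero δ0 (Rx.nat_ne D g0.ne')) (by
      push_cast at e2 e3
      linear_combination (a' * g) * e3 - (b' * g) * e2)
  refine ⟨2 * a', a' * i, b', P014U.Zr.nd_mul nd_two fun ⟨z, w⟩ => d ⟨z * (x * μ + y * (e - star e * D.η)), ?_⟩, ?_⟩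
  · rw [w, Int.cast_mul, Int.cast_natCast] at c' k
    linear_combination -μ * c' - y * k
  · push_cast
    linear_combination a' * e1 + k

/-- **the pairing is a unit** -/
theorem unit [Pp] (h : El A B) (g0 : γ ≠ 0) (r : (D.Ω * D.J γ).im = 0) (m : star μ * D.η = -μ)
    (d : ¬ (pp : D.O) ∣ μ) (N : ℕ) (F : ℤ) (N0 : 0 < N)
    (e : Ki.wp (hq h) N (D.act γ (D.tp (pp ^ N))) (D.act μ (D.tp (pp ^ N))) - hn N * F ∈ O) :
    ¬ (pp : ℤ) ∣ F := by
  rintro ⟨F, rfl⟩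
  obtain ⟨N, rfl⟩ := Nat.exists_eq_succ_of_ne_zero N0.ne'
  have := Cf0.dom D
  have H := Ki.pr (hq h)
  have tr := fun e => act_tor cf e (N + 1)
  let ψ : D.O → D.O →+ K ⧸ O := fun y => .mk' (fun x => mq (Ki.wp (hq h) (N + 1)
    (D.act x (D.tp (pp ^ (N + 1)))) (D.act y (D.tp (pp ^ (N + 1)))))) fun a b => by
      rw [map_add]; exact H.addl (tr a) (tr b) (tr y)
  let φ : D.O →+ K ⧸ O := .mk' (fun y => pp ^ N • ψ y γ) fun a b => by
    rw [← nsmul_add]
    refine congrArg _ ?_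
    simp only [ψ, AddMonoidHom.mk'_apply]
    rw [map_add]
    exact H.addr (tr γ) (tr a) (tr b)
  have f1 : φ γ = 0 := by simp [φ, ψ, Ki.wp_self]
  have f2 : φ μ = 0 := by
    rw [show φ μ = pp ^ N • _ from congrArg (pp ^ N • ·) (mq_eq.2 e), ← map_nsmul, mq_zero]
    refine O_of (intCast_mem (PadicInt.subring pp) F) ?_
    rw [nsmul_eq_mul]
    push_cast
    linear_combination (F : K) * hn_mul (N + 1)
  have z : D.act ((pp ^ N : ℕ) • γ) (D.tp (pp ^ (N + 1))) = 0 := Ki.wp_nd (hq h) (tr _) fun y t => by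
    obtain ⟨x, rfl⟩ := (cf.gen _ (Rx.pw_ne _) y).1 ((cf.tr _ (Rx.pw_ne _) y).2 ((Rx.act_pw _ y).trans t))
    obtain ⟨k, i, j, k0, e⟩ := dec_e cf hγ m d x
    obtain ⟨u, v, c⟩ := ((P014U.Zr.pz.coprime_iff_not_dvd.2 k0).symm.pow_right (n := N + 1))
    have k1 : k • φ x = 0 := by
      rw [← map_zsmul, zsmul_eq_mul, e, map_add, ← zsmul_eq_mul, ← zsmul_eq_mul, map_zsmul, map_zsmul,
        f1, f2, zsmul_zero, zsmul_zero, add_zero]
    have k2 : pp ^ (N + 1) • ψ x γ = 0 := by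
      rw [show ψ x γ = mq _ from rfl, ← map_nsmul, mq_zero, nsmul_eq_mul, Nat.cast_pow]
      exact Ki.wp_lev _ _ _ _
    rw [← mq_zero, show mq _ = ψ x _ from rfl, map_nsmul, show _ • ψ x γ = φ x from rfl,
      ← one_zsmul (φ x), ← c, add_zsmul, mul_zsmul, k1, mul_zsmul, ← Nat.cast_pow, natCast_zsmul,
      show φ x = pp ^ N • ψ x γ from rfl, smul_comm (pp ^ (N + 1)), k2]
    simp
  rw [cf.ker _ (Rx.pw_ne _), nsmul_eq_mul, Nat.cast_pow, pow_succ,
    mul_dvd_mul_iff_left (Rx.pw_ne N)] at z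
  obtain ⟨x, rfl⟩ := z
  obtain ⟨n, e⟩ := hγ x (by
    rw [← JH_eq, map_mul, map_natCast, mul_left_comm, ← nsmul_eq_mul, Complex.smul_im, nsmul_eq_mul] at r
    exact (mul_eq_zero.1 r).resolve_left (Nat.cast_ne_zero.2 pp_ne))
  have := congrArg QuadraticAlgebra.re (mul_right_cancel₀ (right_ne_zero_of_mul g0)
    (show (1 : D.O) * x = (n * pp : ℤ) * x by push_cast; linear_combination e))
  exact P014U.Zr.pz.not_dvd_one ⟨n, (mul_comm n pp) ▸ this⟩

end Vale.Agent.P014X.Zr
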